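import Vale.Agent.P141.H633.FlowV
import Vale.Agent.P141.H609.HZL

/-!
# P141, line (A): the flow pair of the C-step from the cap of the cut slot

`flowD` : for families `b` with the cap `th ^ 2` at the alive nodes (nothing else), `C = Z • v`:
the sum over `x₀` and the nodes of `sC ^ 2 tr (φ (gramC C) Y Yᵀ)`, `Y = h₁ (S_f b)ᵀ`, is at most
`4 ^ L * 8 ^ N * (th ^ 2 * L₀ * (Λ / l) * M)`, for every level `sC`.
-/

namespace Vale.Agent.P141.H924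

open Finset Matrix Vale.Agent.P075 Vale.Agent.P141.PL Vale.Agent.P141.PL.H588
open Vale.Agent.P141.PL.H804 Vale.Agent.P141.H958 Vale.Agent.P141.H338
open Vale.Agent.P141.PL.H315 (avg avg_nonneg)
open Vale.Agent.P141.H420 (Nd Tr)
open Vale.Agent.P141.H633

noncomputable section

open scoped Classical

variable {κ : Type*} [Fintype κ] [DecidableEq κ]

/-- the trace of `φ (ν HᵀH) Y Yᵀ` is at most `ν |H Y|²` -/
theorem tr_phi_le {k : ℕ} {ν : ℝ} (hν : 0 ≤ ν) (H Y : Matrix (Ix k) (Ix k) ℝ) :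
    (phi (gramC ν H) * (Y * Yᵀ)).trace ≤ ν * ((H * Y) * (H * Y)ᵀ).trace := by
  have h1 : (gramC ν H - phi (gramC ν H)).PosSemidef := phi_le_self (gramC_psd hν H)
  have h2 : (Y * Yᵀ).PosSemidef := by
    have := posSemidef_self_mul_conjTranspose Y
    rwa [conjTranspose_eq_transpose_of_trivial] at this
  have h3 := trace_mul_nonneg h1 h2
  rw [Matrix.sub_mul, trace_sub] at h3
  have h4 : (gramC ν H * (Y * Yᵀ)).trace = ν * ((H * Y) * (H * Y)ᵀ).trace := by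
    unfold gramC
    rw [Matrix.smul_mul, trace_smul, smul_eq_mul, tr_gram]
  linarith

variable {L : ℕ} {e : κ → ℤ}

/-- the entries of the product of two labelled blocks -/
theorem blk_entry (he : Function.Injective e) (hm : ∀ i, e i ∈ lbs L) {k : ℕ} (hk : 1 ≤ k)
    (r q p : ℤ) (c b : ℤ → ℤ → κ → ℝ) (i j : Ix (k + L)) :
    (bl (k + L) (encR L fun lab w x => cu e (c w x) lab) r p *
      (hd (k + L) * (bl (k + L) (encR L fun lab y x => cu e (b y x) lab) q p)ᵀ)) i j =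
    2 ^ L * ∑ x ∈ iv k p, hs k x * (c (ix L (2 ^ (k + L) * r + val (k + L) i)) x ⬝ᵥ
      b (ix L (2 ^ (k + L) * q + val (k + L) j)) x) := by
  have h2L : (0 : ℝ) ≤ 2 ^ L := by positivity
  have hsq : √((2 : ℝ) ^ L) * √((2 : ℝ) ^ L) = 2 ^ L := Real.mul_self_sqrt h2L
  set w := ix L (2 ^ (k + L) * r + val (k + L) i) with hw
  set y := ix L (2 ^ (k + L) * q + val (k + L) j) with hy
  have e1 : (bl (k + L) (encR L fun lab w x => cu e (c w x) lab) r p *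
      (hd (k + L) * (bl (k + L) (encR L fun lab y x => cu e (b y x) lab) q p)ᵀ)) i j =
      ∑ x ∈ iv (k + L) p, (√(2 ^ L) * vf L e (fun l x => c w x l) x) *
        vf L e (fun l x => hs k x * (√(2 ^ L) * b y x l)) x := by
    rw [sum_iv (k + L) p, Matrix.mul_apply]
    refine sum_congr rfl fun a _ => ?_
    rw [H576.hd_eq (by omega) p, Matrix.diagonal_mul, Matrix.transpose_apply]
    have e2 : bl (k + L) (encR L fun lab y x => cu e (b y x) lab) q p j a =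
        √(2 ^ L) * cu e (b y (ix L (2 ^ (k + L) * p + val (k + L) a)))
          (lb L (2 ^ (k + L) * p + val (k + L) a)) := rfl
    have e3 : bl (k + L) (encR L fun lab w x => cu e (c w x) lab) r p i a =
        √(2 ^ L) * cu e (c w (ix L (2 ^ (k + L) * p + val (k + L) a)))
          (lb L (2 ^ (k + L) * p + val (k + L) a)) := rfl
    rw [e2, e3, H958.hs_add hk]
    unfold vf
    rw [cu_smul, cu_smul]
  rw [e1, sum_vf hm, mul_sum]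
  refine sum_congr rfl fun x _ => ?_
  unfold dotProduct
  rw [mul_sum, mul_sum]
  refine sum_congr rfl fun l _ => ?_
  have e4 : vf L e (fun l x => c w x l) (2 ^ L * x + e l) = c w x l := by
    unfold vf
    rw [ix_mk (hm l), lb_mk (hm l), cu_apply he]
  rw [e4]
  calc √(2 ^ L) * c w x l * (hs k x * (√(2 ^ L) * b y x l))
      = (√(2 ^ L) * √(2 ^ L)) * (hs k x * (c w x l * b y x l)) := by ring
    _ = _ := by rw [hsq]

omit [DecidableEq κ] in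
/-- moving a symmetric matrix -/
theorem dot_symm {S : Matrix κ κ ℝ} (hS : Sᵀ = S) (c b : κ → ℝ) :
    c ⬝ᵥ (S *ᵥ b) = (S *ᵥ c) ⬝ᵥ b := by
  rw [dotProduct_mulVec, ← mulVec_transpose, hS]

/-- **One node**: only the cap of `b` is used. -/
theorem node_flowD (he : Function.Injective e) (hm : ∀ i, e i ∈ lbs L) {k : ℕ} (hk : 1 ≤ k)
    {sC : ℝ} (hsC : 0 < sC) (r q p : ℤ) (c b : ℤ → ℤ → κ → ℝ) (S : ℤ → Matrix κ κ ℝ)
    (hS : ∀ x ∈ iv k p, (S x)ᵀ = S x) {th2 : ℝ}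
    (hcap : ∀ ψ : ℤ → κ → ℝ, ∑ y ∈ iv k q, (∑ x ∈ iv k p, b y x ⬝ᵥ ψ x) ^ 2 ≤
      th2 * 4 ^ k * ∑ x ∈ iv k p, nv (ψ x)) :
    (phi (gramC ((sC ^ 2)⁻¹ * (4 ^ (k + L))⁻¹)
        (bl (k + L) (encR L fun lab w x => cu e (c w x) lab) r p)) *
      ((hd (k + L) * (bl (k + L) (encR L fun lab y x => cu e (S x *ᵥ b y x) lab) q p)ᵀ) *
        (hd (k + L) * (bl (k + L) (encR L fun lab y x => cu e (S x *ᵥ b y x) lab) q p)ᵀ)ᵀ)).trace ≤
    (sC ^ 2)⁻¹ * (4 ^ L * th2 * ∑ w ∈ iv k r, ∑ x ∈ iv k p, nv (S x *ᵥ c w x)) := by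
  have hν : (0 : ℝ) ≤ (sC ^ 2)⁻¹ * (4 ^ (k + L))⁻¹ := by positivity
  refine (tr_phi_le hν _ _).trans ?_
  set Hm := bl (k + L) (encR L fun lab w x => cu e (c w x) lab) r p with hH
  set Y := hd (k + L) * (bl (k + L) (encR L fun lab y x => cu e (S x *ᵥ b y x) lab) q p)ᵀ with hY
  set g : ℤ → ℤ → ℝ := fun w y => (∑ x ∈ iv k p, b y x ⬝ᵥ (hs k x • (S x *ᵥ c w x))) ^ 2 with hg
  have q2 : ∀ i j, (Hm * Y) i j ^ 2 = 4 ^ L * g (ix L (2 ^ (k + L) * r + val (k + L) i))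
      (ix L (2 ^ (k + L) * q + val (k + L) j)) := by
    intro i j
    rw [hH, hY, blk_entry he hm hk r q p c (fun y x => S x *ᵥ b y x) i j, mul_pow, ← pow_mul,
      mul_comm L 2, pow_mul]
    have e1 : ∀ w y, ∑ x ∈ iv k p, hs k x * (c w x ⬝ᵥ (S x *ᵥ b y x)) =
        ∑ x ∈ iv k p, b y x ⬝ᵥ (hs k x • (S x *ᵥ c w x)) := by
      intro w y
      refine sum_congr rfl fun x hx => ?_
      rw [dotProduct_smul, smul_eq_mul, dot_symm (hS x hx), dotProduct_comm (b y x)]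
    rw [e1]
    norm_num [hg]
  have q3 : ((Hm * Y) * (Hm * Y)ᵀ).trace = 4 ^ L * 4 ^ L * ∑ w ∈ iv k r, ∑ y ∈ iv k q, g w y := by
    have e1 : ((Hm * Y) * (Hm * Y)ᵀ).trace = ∑ i, ∑ j, (Hm * Y) i j ^ 2 := by
      unfold Matrix.trace
      refine sum_congr rfl fun i _ => ?_
      rw [diag_apply, Matrix.mul_apply]
      exact sum_congr rfl fun j _ => by rw [transpose_apply]; ring
    have e2 : ∀ w, ∑ j : Ix (k + L), g w (ix L (2 ^ (k + L) * q + val (k + L) j)) =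
        2 ^ L * ∑ y ∈ iv k q, g w y := by
      intro w
      rw [← sum_iv_ix L k q, sum_iv (k + L) q]
    have e3 : ∑ i : Ix (k + L), ∑ y ∈ iv k q, g (ix L (2 ^ (k + L) * r + val (k + L) i)) y =
        2 ^ L * ∑ w ∈ iv k r, ∑ y ∈ iv k q, g w y := by
      rw [← sum_iv_ix L k r fun w => ∑ y ∈ iv k q, g w y, sum_iv (k + L) r]
    rw [e1]
    simp only [q2, ← mul_sum, e2, e3]
    rw [show (4 : ℝ) ^ L = 2 ^ L * 2 ^ L by rw [← mul_pow]; norm_num]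
    ring
  rw [q3]
  have q4 : ∀ w, ∑ y ∈ iv k q, g w y ≤ th2 * 4 ^ k * ∑ x ∈ iv k p, nv (S x *ᵥ c w x) := by
    intro w
    refine (hcap fun x => hs k x • (S x *ᵥ c w x)).trans (le_of_eq ?_)
    congr 1
    refine sum_congr rfl fun x _ => ?_
    unfold nv
    refine sum_congr rfl fun l _ => ?_
    rw [Pi.smul_apply, smul_eq_mul, mul_pow]
    have : hs k x ^ 2 = 1 := by
      unfold hs
      split_ifs <;> norm_num
    rw [this, one_mul]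
  have q5 : ∑ w ∈ iv k r, ∑ y ∈ iv k q, g w y ≤
      th2 * 4 ^ k * ∑ w ∈ iv k r, ∑ x ∈ iv k p, nv (S x *ᵥ c w x) := by
    rw [mul_sum]
    exact sum_le_sum fun w _ => q4 w
  have q6 := mul_le_mul_of_nonneg_left q5
    (show (0 : ℝ) ≤ (sC ^ 2)⁻¹ * (4 ^ (k + L))⁻¹ * (4 ^ L * 4 ^ L) by positivity)
  refine le_trans (le_of_eq (by ring)) (q6.trans (le_of_eq ?_))
  have e4 : (4 : ℝ) ^ (k + L) = 4 ^ k * 4 ^ L := by rw [pow_add]
  rw [e4]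
  field_simp

/-- a matrix against a family with the top potential `Λ` -/
theorem sum_nv_le {r : ℤ} {N : ℕ} {Λ : ℝ} {v : ℤ → κ → ℝ}
    (htop : ∀ ε : κ → ℝ, (avg (iv N r) fun w => (∑ i, ε i * v w i) ^ 2) ≤ Λ * ∑ i, ε i ^ 2)
    (S : Matrix κ κ ℝ) : ∑ w ∈ iv N r, nv (S *ᵥ v w) ≤ 2 ^ N * Λ * (S * Sᵀ).trace := by
  have e1 : ∑ w ∈ iv N r, nv (S *ᵥ v w) = ∑ i, ∑ w ∈ iv N r, (∑ j, S i j * v w j) ^ 2 := by
    unfold nv
    rw [sum_comm]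
    rfl
  have e2 : (S * Sᵀ).trace = ∑ i, ∑ j, S i j ^ 2 := by
    unfold Matrix.trace
    refine sum_congr rfl fun i _ => ?_
    rw [diag_apply, Matrix.mul_apply]
    exact sum_congr rfl fun j _ => by rw [transpose_apply]; ring
  rw [e1, e2, mul_sum]
  refine sum_le_sum fun i _ => ?_
  have h1 := htop fun j => S i j
  rw [avg_iv, inv_mul_le_iff₀ (by positivity)] at h1
  linarith

variable {N : ℕ} {R : Pt} {t₀ : ℤ} {c : ℤ → ℕ → ℤ} {s : ℤ → ℕ → Finset Pt}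
  {l sC L₀ Λ M th2 : ℝ} {Cv b : ℤ → ℕ → ℤ → ℤ → κ → ℝ} {Z : ℤ → ℕ → ℤ → ℤ → ℝ}
  {v : ℤ → ℤ → κ → ℝ} {G K : ℤ → ℕ → ℤ → Matrix κ κ ℝ}

/-- **One scale, one pair of cells.** -/
theorem cell_sum (hL : 0 ≤ L₀) {k : ℕ} (hkN : k ≤ N)
    (hcl : ∀ x y, ix k x = ix k y → c x k = c y k)
    (hsl : ∀ x y, ix k x = ix k y → s x k = s y k)
    (hbx : ∀ x₀ ∈ iv N t₀, s x₀ k ⊆ bx3 N R k (c x₀ k))
    (hinj : ∀ x ∈ iv N t₀, ∀ y ∈ iv N t₀, c x k = c y k → ix k x = ix k y)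
    (hC : ∀ x₀ ∈ iv N t₀, ∀ m ∈ s x₀ k, ∀ w ∈ iv k m.1, ∀ x ∈ iv k m.2.2,
      Cv x₀ k w x = Z x₀ k x w • v x w)
    (hZ : ∀ x₀ ∈ iv N t₀, ∀ m ∈ s x₀ k, ∀ w ∈ iv k m.1, ∀ x ∈ iv k m.2.2,
      (avg (iv k (ix k x₀)) fun z => Z z k x w ^ 2) ≤ L₀)
    (htop : ∀ x ∈ iv N R.2.2, ∀ ε : κ → ℝ,
      (avg (iv N R.1) fun w => (∑ i, ε i * v x w i) ^ 2) ≤ Λ * ∑ i, ε i ^ 2)
    (S : ℤ → Matrix κ κ ℝ) {p q : ℤ} (hp : p ∈ iv (N - k) R.2.2) :
    ∑ x₀ ∈ iv N t₀, (if (c x₀ k - p - q, q, p) ∈ s x₀ k then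
      ∑ w ∈ iv k (c x₀ k - p - q), ∑ x ∈ iv k p, nv (S x *ᵥ Cv x₀ k w x) else 0) ≤
      2 ^ k * L₀ * (2 ^ N * Λ * ∑ x ∈ iv k p, (S x * (S x)ᵀ).trace) := by
  set cJ : ℤ → ℤ := fun J => c (2 ^ k * J) k with hcJ
  set al : ℤ → Prop := fun J => (cJ J - p - q, q, p) ∈ s (2 ^ k * J) k with hal
  set h : ℤ → ℝ := fun w => ∑ x ∈ iv k p, nv (S x *ᵥ v x w) with hh
  have hh0 : ∀ w, 0 ≤ h w := fun w => sum_nonneg fun x _ => nv_nonneg _
  have hix : ∀ J z : ℤ, z ∈ iv k J → ix k z = ix k (2 ^ k * J) := by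
    intro J z hz
    rw [mem_iv.1 hz]
    symm
    apply mem_iv.1
    unfold iv
    rw [mem_Ico]
    have : (0 : ℤ) < 2 ^ k := by positivity
    constructor <;> linarith
  have hcz : ∀ J z : ℤ, z ∈ iv k J → c z k = cJ J := fun J z hz => hcl _ _ (hix J z hz)
  have hsz : ∀ J z : ℤ, z ∈ iv k J → s z k = s (2 ^ k * J) k := fun J z hz => hsl _ _ (hix J z hz)
  have hzN : ∀ J ∈ iv (N - k) t₀, ∀ z ∈ iv k J, z ∈ iv N t₀ := by
    intro J hJ z hz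
    rw [mem_iv] at hJ hz ⊢
    rw [show N = k + (N - k) by omega, ← ix_ix, hz, hJ]
  have hrep : ∀ J : ℤ, (2 ^ k * J : ℤ) ∈ iv k J := by
    intro J
    unfold iv
    rw [mem_Ico]
    have : (0 : ℤ) < 2 ^ k := by positivity
    constructor <;> linarith
  have hpN : ∀ x ∈ iv k p, x ∈ iv N R.2.2 := by
    intro x hx
    rw [mem_iv] at hp hx ⊢
    rw [show N = k + (N - k) by omega, ← ix_ix, hx, hp]
  have hrR : ∀ J ∈ iv (N - k) t₀, al J → cJ J - p - q ∈ iv (N - k) R.1 := by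
    intro J hJ ha
    have h1 := hbx (2 ^ k * J) (hzN J hJ _ (hrep J)) ha
    unfold bx3 at h1
    rw [mem_filter, mem_product] at h1
    exact h1.1.1
  -- one cell of `x₀`
  have h1 : ∀ J ∈ iv (N - k) t₀, ∑ z ∈ iv k J, (if (c z k - p - q, q, p) ∈ s z k then
      ∑ w ∈ iv k (c z k - p - q), ∑ x ∈ iv k p, nv (S x *ᵥ Cv z k w x) else 0) ≤
      2 ^ k * L₀ * (if al J then ∑ w ∈ iv k (cJ J - p - q), h w else 0) := by
    intro J hJ
    by_cases ha : al J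
    · rw [if_pos ha]
      have e1 : ∀ z ∈ iv k J, (if (c z k - p - q, q, p) ∈ s z k then
          ∑ w ∈ iv k (c z k - p - q), ∑ x ∈ iv k p, nv (S x *ᵥ Cv z k w x) else 0) =
          ∑ w ∈ iv k (cJ J - p - q), ∑ x ∈ iv k p, Z z k x w ^ 2 * nv (S x *ᵥ v x w) := by
        intro z hz
        have ha' : (c z k - p - q, q, p) ∈ s z k := by
          rw [hcz J z hz, hsz J z hz]; exact ha
        rw [if_pos ha', hcz J z hz]
        rw [hcz J z hz] at ha'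
        refine sum_congr rfl fun w hw => sum_congr rfl fun x hx => ?_
        rw [hC z (hzN J hJ z hz) _ ha' w hw x hx, mulVec_smul]
        unfold nv
        rw [mul_sum]
        exact sum_congr rfl fun i _ => by rw [Pi.smul_apply, smul_eq_mul, mul_pow]
      rw [sum_congr rfl e1, sum_comm, mul_sum]
      refine sum_le_sum fun w hw => ?_
      rw [sum_comm, hh, mul_sum]
      refine sum_le_sum fun x hx => ?_
      rw [← sum_mul]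
      refine mul_le_mul_of_nonneg_right ?_ (nv_nonneg _)
      have h2 := hZ (2 ^ k * J) (hzN J hJ _ (hrep J)) _ ha w hw x hx
      rw [mem_iv.1 (hrep J), avg_iv, inv_mul_le_iff₀ (by positivity)] at h2
      exact h2
    · rw [if_neg ha, mul_zero]
      refine le_of_eq (sum_eq_zero fun z hz => ?_)
      rw [hcz J z hz, hsz J z hz]
      exact if_neg ha
  rw [← sum_cells hkN t₀]
  refine (sum_le_sum h1).trans ?_
  rw [← mul_sum]
  refine mul_le_mul_of_nonneg_left ?_ (by positivity)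
  have h2 := tie_sum hkN (t₀ := t₀) (r₁ := R.1) (τ := fun J => cJ J - p - q) (P := al)
    (fun J hJ J' hJ' h3 => ?_) hrR (f := h) hh0
  · refine le_trans (le_of_eq (sum_congr rfl fun J _ => ?_)) (h2.trans ?_)
    · by_cases ha : al J
      · rw [if_pos ha, if_pos ha]
      · rw [if_neg ha, if_neg ha]
    rw [hh, sum_comm, mul_sum]
    exact sum_le_sum fun x hx => sum_nv_le (htop x (hpN x hx)) (S x)
  · have h4 : c (2 ^ k * J) k = c (2 ^ k * J') k := by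
      simp only [hcJ] at h3
      linarith
    have h5 := hinj _ (hzN J hJ _ (hrep J)) _ (hzN J' hJ' _ (hrep J')) h4
    rwa [mem_iv.1 (hrep J), mem_iv.1 (hrep J')] at h5

/-- the first mass of a node is nonnegative -/
theorem mass1_nonneg {l : ℝ} {G D K Kp Km : Matrix κ κ ℝ} (h : Nd l G D K Kp Km) :
    0 ≤ l * (K⁻¹ * Nd.dK Kp Km * K⁻¹ * G * K⁻¹ * Nd.dK Kp Km * K⁻¹).trace := by
  have hKi := h.pdK.inv.isHermitian
  have hd := h.herm_dK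
  refine mul_nonneg h.l_pos.le ?_
  have h1 := h.psG.mul_mul_conjTranspose_same (K⁻¹ * Nd.dK Kp Km * K⁻¹)
  rw [conjTranspose_mul, conjTranspose_mul, hKi.eq, hd.eq] at h1
  have h2 := h1.trace_nonneg
  simpa only [Matrix.mul_assoc] using h2

/-- **the second mass on the tree.** -/
theorem tree_S {Gx Kx : ℕ → ℤ → Matrix κ κ ℝ} (hT : Tr l N Gx Kx) (r : ℤ) :
    ∑ k ∈ Icc 1 N, (2 : ℝ) ^ k * ∑ q ∈ iv (N - k) r, l *
      (Sf l (Kx k q) (Kx (k - 1) (2 * q)) (Kx (k - 1) (2 * q + 1)) *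
        (Sf l (Kx k q) (Kx (k - 1) (2 * q)) (Kx (k - 1) (2 * q + 1)))ᵀ).trace ≤
      2 ^ N * (Gx N r).trace := by
  have h1 := tree_mass2 hT le_rfl r
  rw [H420.tsum_eq] at h1
  have h2 := mul_le_mul_of_nonneg_left h1 (show (0 : ℝ) ≤ 2 ^ N by positivity)
  refine le_trans ?_ h2
  rw [mul_sum]
  refine sum_le_sum fun k hk => ?_
  have hk1 := (mem_Icc.1 hk).1
  have hkN := (mem_Icc.1 hk).2
  have e1 : (2 : ℝ) ^ N * ((2 ^ (N - k) : ℝ)⁻¹) = 2 ^ k := by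
    have : (2 : ℝ) ^ N = 2 ^ (N - k) * 2 ^ k := by
      rw [← pow_add, Nat.sub_add_cancel hkN]
    rw [this]
    field_simp
  rw [← mul_assoc, e1]
  refine mul_le_mul_of_nonneg_left ?_ (by positivity)
  refine sum_le_sum fun q _ => ?_
  have hnd := hT.nd (k := k - 1) (by omega) q
  rw [Nat.sub_add_cancel hk1] at hnd
  have := mass1_nonneg hnd
  linarith

/-- the sum over the cells of `x` -/
theorem resum {N k : ℕ} (hkN : k ≤ N) (R2 R1 : ℤ) (a : ℝ) (f : ℤ → ℤ → ℝ) :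
    ∑ p ∈ iv (N - k) R2, ∑ q ∈ iv (N - k) R1, a * (2 ^ k * ∑ x ∈ iv k p, f x q) =
      a * ∑ x ∈ iv N R2, 2 ^ k * ∑ q ∈ iv (N - k) R1, f x q := by
  rw [← sum_cells hkN R2]
  simp only [mul_sum]
  refine sum_congr rfl fun p _ => ?_
  rw [sum_comm]

/-- **The flow pair of the C-step from the cap.** -/
theorem flowD (he : Function.Injective e) (hm : ∀ i, e i ∈ lbs L) (hsC : 0 < sC) (hL : 0 ≤ L₀)
    (hΛ : 0 ≤ Λ) (hl : 0 < l) (hth : 0 ≤ th2)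
    (hcl : ∀ k x y, ix k x = ix k y → c x k = c y k)
    (hsl : ∀ k x y, ix k x = ix k y → s x k = s y k)
    (hbx : ∀ x₀ ∈ iv N t₀, ∀ k ∈ Icc 1 N, s x₀ k ⊆ bx3 N R k (c x₀ k))
    (hinj : ∀ k ∈ Icc 1 N, ∀ x ∈ iv N t₀, ∀ y ∈ iv N t₀, c x k = c y k → ix k x = ix k y)
    (hC : ∀ x₀ ∈ iv N t₀, ∀ k ∈ Icc 1 N, ∀ m ∈ s x₀ k, ∀ w ∈ iv k m.1, ∀ x ∈ iv k m.2.2,
      Cv x₀ k w x = Z x₀ k x w • v x w)
    (hZ : ∀ x₀ ∈ iv N t₀, ∀ k ∈ Icc 1 N, ∀ m ∈ s x₀ k, ∀ w ∈ iv k m.1, ∀ x ∈ iv k m.2.2,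
      (avg (iv k (ix k x₀)) fun z => Z z k x w ^ 2) ≤ L₀)
    (htop : ∀ x ∈ iv N R.2.2, ∀ ε : κ → ℝ,
      (avg (iv N R.1) fun w => (∑ i, ε i * v x w i) ^ 2) ≤ Λ * ∑ i, ε i ^ 2)
    (hcap : ∀ x₀ ∈ iv N t₀, ∀ k ∈ Icc 1 N, ∀ m ∈ s x₀ k, ∀ ψ : ℤ → κ → ℝ,
      ∑ y ∈ iv k m.2.1, (∑ x ∈ iv k m.2.2, b x₀ k y x ⬝ᵥ ψ x) ^ 2 ≤
        th2 * 4 ^ k * ∑ x ∈ iv k m.2.2, nv (ψ x))
    (hT : ∀ x, Tr l N (G x) (K x)) (hM : ∀ x ∈ iv N R.2.2, (G x N R.2.1).trace ≤ M) :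
    sC ^ 2 * ∑ x₀ ∈ iv N t₀, ∑ k ∈ Icc 1 N, ∑ m ∈ s x₀ k,
      (phi (gramC ((sC ^ 2)⁻¹ * (4 ^ (k + L))⁻¹)
          (bl (k + L) (encR L fun lab w x => cu e (Cv x₀ k w x) lab) m.1 m.2.2)) *
        (YF L l e K (b x₀) (k + L) m * (YF L l e K (b x₀) (k + L) m)ᵀ)).trace ≤
      4 ^ L * 8 ^ N * (th2 * L₀ * (Λ / l) * M) := by
  have hSy : ∀ k ∈ Icc 1 N, ∀ q x, (SfK l K k q x)ᵀ = SfK l K k q x := by
    intro k hk q x
    have hnd := (hT x).nd (k := k - 1) (by have := (mem_Icc.1 hk).2; have := (mem_Icc.1 hk).1; omega) q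
    rw [Nat.sub_add_cancel (mem_Icc.1 hk).1] at hnd
    have h1 := Sf_herm hnd
    unfold Matrix.IsHermitian at h1
    rw [conjTranspose_eq_transpose_of_trivial] at h1
    exact h1
  set T : ℤ → ℕ → Pt → ℝ := fun x₀ k m => ∑ w ∈ iv k m.1, ∑ x ∈ iv k m.2.2,
    nv (SfK l K k m.2.1 x *ᵥ Cv x₀ k w x) with hTd
  -- the nodes
  have h1 : sC ^ 2 * ∑ x₀ ∈ iv N t₀, ∑ k ∈ Icc 1 N, ∑ m ∈ s x₀ k,
      (phi (gramC ((sC ^ 2)⁻¹ * (4 ^ (k + L))⁻¹)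
          (bl (k + L) (encR L fun lab w x => cu e (Cv x₀ k w x) lab) m.1 m.2.2)) *
        (YF L l e K (b x₀) (k + L) m * (YF L l e K (b x₀) (k + L) m)ᵀ)).trace ≤
      4 ^ L * th2 * ∑ x₀ ∈ iv N t₀, ∑ k ∈ Icc 1 N, ∑ m ∈ s x₀ k, T x₀ k m := by
    rw [mul_sum, mul_sum]
    refine sum_le_sum fun x₀ hx => ?_
    rw [mul_sum, mul_sum]
    refine sum_le_sum fun k hk => ?_
    rw [mul_sum, mul_sum]
    refine sum_le_sum fun m hmm => ?_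
    have h2 := node_flowD he hm (mem_Icc.1 hk).1 hsC m.1 m.2.1 m.2.2 (Cv x₀ k)
      (b x₀ k) (SfK l K k m.2.1) (fun x _ => hSy k hk m.2.1 x) (hcap x₀ hx k hk m hmm)
    have h3 : YF L l e K (b x₀) (k + L) m = hd (k + L) * (bl (k + L) (encR L fun lab y x =>
        cu e (SfK l K k m.2.1 x *ᵥ b x₀ k y x) lab) m.2.1 m.2.2)ᵀ := by
      unfold YF FB
      rw [Nat.add_sub_cancel]
    rw [h3]
    have h4 := mul_le_mul_of_nonneg_left h2 (sq_nonneg sC)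
    refine h4.trans (le_of_eq ?_)
    rw [← mul_assoc, mul_inv_cancel₀ (by positivity), one_mul]
  refine h1.trans ?_
  -- one scale
  have h2 : ∀ k ∈ Icc 1 N, ∑ x₀ ∈ iv N t₀, ∑ m ∈ s x₀ k, T x₀ k m ≤
      L₀ * (2 ^ N * (Λ / l)) * ∑ x ∈ iv N R.2.2, 2 ^ k * ∑ q ∈ iv (N - k) R.2.1,
        l * (SfK l K k q x * (SfK l K k q x)ᵀ).trace := by
    intro k hk
    have hkN := (mem_Icc.1 hk).2
    calc ∑ x₀ ∈ iv N t₀, ∑ m ∈ s x₀ k, T x₀ k m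
        = ∑ p ∈ iv (N - k) R.2.2, ∑ q ∈ iv (N - k) R.2.1, ∑ x₀ ∈ iv N t₀,
            if (c x₀ k - p - q, q, p) ∈ s x₀ k then T x₀ k (c x₀ k - p - q, q, p) else 0 := by
          rw [sum_congr rfl fun x₀ hx => sum_alive (hbx x₀ hx k hk) (T x₀ k), sum_comm]
          exact sum_congr rfl fun p _ => sum_comm
      _ ≤ ∑ p ∈ iv (N - k) R.2.2, ∑ q ∈ iv (N - k) R.2.1, 2 ^ k * L₀ * (2 ^ N * Λ *
            ∑ x ∈ iv k p, (SfK l K k q x * (SfK l K k q x)ᵀ).trace) :=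
          sum_le_sum fun p hp => sum_le_sum fun q hq =>
            cell_sum hL hkN (hcl k) (hsl k) (fun x₀ hx => hbx x₀ hx k hk) (hinj k hk)
              (fun x₀ hx => hC x₀ hx k hk) (fun x₀ hx => hZ x₀ hx k hk) htop
              (SfK l K k q) hp
      _ = _ := by
          rw [← resum hkN R.2.2 R.2.1 (L₀ * (2 ^ N * (Λ / l)))
            fun x q => l * (SfK l K k q x * (SfK l K k q x)ᵀ).trace]
          refine sum_congr rfl fun p _ => sum_congr rfl fun q _ => ?_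
          rw [← mul_sum]
          generalize ∑ x ∈ iv k p, (SfK l K k q x * (SfK l K k q x)ᵀ).trace = X
          have hΛl : Λ = Λ / l * l := (div_mul_cancel₀ Λ hl.ne').symm
          calc 2 ^ k * L₀ * (2 ^ N * Λ * X) = 2 ^ k * L₀ * (2 ^ N * (Λ / l * l) * X) := by
                rw [← hΛl]
            _ = _ := by ring
  have hLl : 0 ≤ L₀ * (2 ^ N * (Λ / l)) := by positivity
  have h3 : ∑ x₀ ∈ iv N t₀, ∑ k ∈ Icc 1 N, ∑ m ∈ s x₀ k, T x₀ k m ≤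
      L₀ * (2 ^ N * (Λ / l)) * (4 ^ N * M) := by
    rw [sum_comm]
    refine (sum_le_sum h2).trans ?_
    rw [← mul_sum]
    refine mul_le_mul_of_nonneg_left ?_ hLl
    rw [sum_comm]
    have h4 : ∀ x ∈ iv N R.2.2, ∑ k ∈ Icc 1 N, (2 : ℝ) ^ k * ∑ q ∈ iv (N - k) R.2.1,
        l * (SfK l K k q x * (SfK l K k q x)ᵀ).trace ≤ 2 ^ N * M := fun x hx =>
      (tree_S (hT x) R.2.1).trans (mul_le_mul_of_nonneg_left (hM x hx) (by positivity))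
    refine (sum_le_sum h4).trans (le_of_eq ?_)
    rw [sum_const, PL.card_iv, nsmul_eq_mul]
    push_cast
    rw [show (4 : ℝ) ^ N = 2 ^ N * 2 ^ N by rw [← mul_pow]; norm_num]
    ring
  refine (mul_le_mul_of_nonneg_left h3 (by positivity)).trans (le_of_eq ?_)
  rw [show (8 : ℝ) ^ N = 2 ^ N * 4 ^ N by rw [← mul_pow]; norm_num]
  ring

omit [DecidableEq κ] in
/-- the cap with labels as a cap for vectors -/
theorem cap_of_capR (he : Function.Injective e) (hm : ∀ i, e i ∈ lbs L) {k : ℕ} {q p : ℤ}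
    {th : ℝ} {b : ℤ → ℤ → κ → ℝ} (h : CapR L k q p th fun lab y x => cu e (b y x) lab)
    (ψ : ℤ → κ → ℝ) : ∑ y ∈ iv k q, (∑ x ∈ iv k p, b y x ⬝ᵥ ψ x) ^ 2 ≤
      th ^ 2 * 4 ^ k * ∑ x ∈ iv k p, nv (ψ x) := by
  set V : ℤ → ℝ := fun y => ∑ x ∈ iv k p, b y x ⬝ᵥ ψ x with hV
  have h1 := h (fun lab x => cu e (ψ x) lab) V
  have e1 : ∑ x ∈ iv k p, ∑ l ∈ lbs L, ∑ y ∈ iv k q,
      cu e (ψ x) l * V y * cu e (b y x) l = ∑ y ∈ iv k q, V y ^ 2 := by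
    have e2 : ∀ x, ∑ l ∈ lbs L, ∑ y ∈ iv k q, cu e (ψ x) l * V y * cu e (b y x) l =
        ∑ y ∈ iv k q, V y * (b y x ⬝ᵥ ψ x) := by
      intro x
      rw [sum_comm]
      refine sum_congr rfl fun y _ => ?_
      have e3 := sum_cu_cu he hm (ψ x) (b y x)
      rw [dotProduct_comm]
      unfold dotProduct
      rw [← e3, mul_sum]
      exact sum_congr rfl fun l _ => by ring
    simp only [e2]
    rw [sum_comm]
    refine sum_congr rfl fun y _ => ?_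
    rw [← mul_sum, pow_two]
  have e4 : ∑ x ∈ iv k p, ∑ l ∈ lbs L, cu e (ψ x) l ^ 2 = ∑ x ∈ iv k p, nv (ψ x) := by
    refine sum_congr rfl fun x _ => ?_
    have e3 := sum_cu_cu he hm (ψ x) (ψ x)
    unfold nv
    refine (sum_congr rfl fun l _ => by rw [pow_two]).trans (e3.trans ?_)
    exact sum_congr rfl fun i _ => by rw [pow_two]
  rw [e1, e4] at h1
  have hE : (0 : ℝ) ≤ ∑ x ∈ iv k p, nv (ψ x) := sum_nonneg fun x _ => nv_nonneg _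
  have h2 : (th * 2 ^ k) ^ 2 = th ^ 2 * 4 ^ k := by
    rw [mul_pow, ← pow_mul, mul_comm k 2, pow_mul]
    norm_num
  rw [h2] at h1
  rcases eq_or_lt_of_le (sum_nonneg fun y _ => sq_nonneg (V y) : 0 ≤ ∑ y ∈ iv k q, V y ^ 2) with
    h3 | h3
  · rw [← h3]
    positivity
  · have h4 : (∑ y ∈ iv k q, V y ^ 2) * ∑ y ∈ iv k q, V y ^ 2 ≤
        (th ^ 2 * 4 ^ k * ∑ x ∈ iv k p, nv (ψ x)) * ∑ y ∈ iv k q, V y ^ 2 := by
      rw [← pow_two]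
      exact h1
    exact le_of_mul_le_mul_right h4 h3

/-- **`hqF` of `H609.tzX_lab`**, every level. -/
theorem flowD_lab {cC th : ℝ} (he : Function.Injective e) (hm : ∀ i, e i ∈ lbs L) (hcC : 0 < cC)
    (hL : 0 ≤ L₀) (hΛ : 0 ≤ Λ) (hl : 0 < l)
    (hcl : ∀ k x y, ix k x = ix k y → c x k = c y k)
    (hsl : ∀ k x y, ix k x = ix k y → s x k = s y k)
    (hbx : ∀ x₀ ∈ iv N t₀, ∀ k ∈ Icc 1 N, s x₀ k ⊆ bx3 N R k (c x₀ k))
    (hinj : ∀ k ∈ Icc 1 N, ∀ x ∈ iv N t₀, ∀ y ∈ iv N t₀, c x k = c y k → ix k x = ix k y)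
    (hC : ∀ x₀ ∈ iv N t₀, ∀ k ∈ Icc 1 N, ∀ m ∈ s x₀ k, ∀ w ∈ iv k m.1, ∀ x ∈ iv k m.2.2,
      Cv x₀ k w x = Z x₀ k x w • v x w)
    (hZ : ∀ x₀ ∈ iv N t₀, ∀ k ∈ Icc 1 N, ∀ m ∈ s x₀ k, ∀ w ∈ iv k m.1, ∀ x ∈ iv k m.2.2,
      (avg (iv k (ix k x₀)) fun z => Z z k x w ^ 2) ≤ L₀)
    (htop : ∀ x ∈ iv N R.2.2, ∀ ε : κ → ℝ,
      (avg (iv N R.1) fun w => (∑ i, ε i * v x w i) ^ 2) ≤ Λ * ∑ i, ε i ^ 2)
    (hcap : ∀ x₀ ∈ iv N t₀, ∀ k ∈ Icc 1 N, ∀ m ∈ s x₀ k,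
      CapR L k m.2.1 m.2.2 th fun lab y x => cu e (b x₀ k y x) lab)
    (hT : ∀ x, Tr l N (G x) (K x)) (hM : ∀ x ∈ iv N R.2.2, (G x N R.2.1).trace ≤ M) (e' : ℕ) :
    ∑ x₀ ∈ iv N t₀, (cC / 2 ^ (e' - 1)) ^ 2 * ∑ k ∈ Icc 1 N, ∑ m ∈ s x₀ k,
      (phi (gramC (lv cC e' * (4 ^ (k + L))⁻¹)
          (bl (k + L) (encR L fun lab w x => cu e (Cv x₀ k w x) lab) m.1 m.2.2)) *
        (YF L l e K (b x₀) (k + L) m * (YF L l e K (b x₀) (k + L) m)ᵀ)).trace ≤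
      4 ^ L * 8 ^ N * (th ^ 2 * L₀ * (Λ / l) * M) := by
  have h1 := flowD (sC := cC / 2 ^ (e' - 1)) he hm (by positivity) hL hΛ hl (sq_nonneg th) hcl hsl
    hbx hinj hC hZ htop (fun x₀ hx k hk m hmm ψ => cap_of_capR he hm (hcap x₀ hx k hk m hmm) ψ)
    hT hM
  rw [H609.lv_inv hcC, ← mul_sum]
  exact h1

end

end Vale.Agent.P141.H924
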