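import Vale.Agent.P141.H924.SlotS

/-!
# P141, line (A), flow part: the Abel sums of a slot with row-level signs, the masked slot

* `qA` : the Abel sums of a slot; `qA_le` : in the five functionals; `qA_add` : two slots;
* `leaf0_row : PartRow FD q0`;
* `Msk`, `PartMk D mk T` : the price of a functional at the masked slot `mk`; `PartRow.mk`;
* **`partF_mask`** : the flow part from the near term, the births and the shift error of all
  row-level signs, the node forms of the masked slot and the stopped part.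
-/

namespace Vale.Agent.P141.H924

open Finset Matrix
open Vale.Agent.P141.PL (Pt iv hs ix mem_iv ix_ix cb mem_cb cx)
open Vale.Agent.P141.PL.H560 (cbs bx0)
open Vale.Agent.P141.PL.H315 (Tri)
open Vale.Agent.P141.H677 (GA RT MT KT GT rt rv cP)
open Vale.Agent.P141.H677.Sk
open Vale.Agent.P141.H352 (In p)
open Vale.Agent.P141.H841 (Rm Rs Lm)
open Vale.Agent.P141.H401 (StX PartX PartF NTFf Bun)
open Vale.Agent.P141.H58 (MxR sR sR_le sl_Rm)

noncomputable section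

open scoped Classical

variable {ι : Type} [Fintype ι] [DecidableEq ι]

/-- the Abel sums of a slot -/
def qA (o : ℤ) (K : ℕ) (M : Pt) (R : Slt ι) (A : FamA) (b C : FamV ι) : ℝ :=
  ∑ t ∈ rt M, ∑ x0 ∈ iv K t, |∑ j ∈ range K, In K M (p (j + 1) (cP o x0 (j + 1))) (fun y =>
    GA (A x0) (b x0) (C x0) (R x0) j (j + 1) y -
      GA (A x0) (b x0) (C x0) (R x0) (j + 1) (j + 1) y)|

theorem qA_le (o : ℤ) (K : ℕ) (M : Pt) (R : Slt ι) (A : FamA) (b C : FamV ι)
    (h0 : ∀ x0 z x, R x0 K z x = 0) :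
    qA o K M R A b C ≤ qN o K M R A b C + (q0 K M R A b C + (qB K M R A b C +
      8 / 3 * (qS K M R A b C + qM K M R A b C))) := ab_le o K M R A b C h0

omit [DecidableEq ι] in
theorem GA_add (A : ℕ → ℤ → ℤ → ℝ) (b C : ℕ → ℤ → ℤ → ι → ℝ)
    (R1 R2 : ℕ → ℤ → ℤ → Matrix ι ι ℝ) (i j : ℕ) (y : Pt) :
    GA A b C (fun i z w => R1 i z w + R2 i z w) i j y = GA A b C R1 i j y + GA A b C R2 i j y := by
  unfold H677.GA
  rw [add_mulVec, dotProduct_add, mul_add]

omit [DecidableEq ι] in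
/-- **Two slots.** -/
theorem qA_add (o : ℤ) (K : ℕ) (M : Pt) (R R1 R2 : Slt ι) (A : FamA) (b C : FamV ι)
    (h : ∀ x0 j z x, R x0 j z x = R1 x0 j z x + R2 x0 j z x) :
    qA o K M R A b C ≤ qA o K M R1 A b C + qA o K M R2 A b C := by
  unfold qA
  rw [← sum_add_distrib]
  refine sum_le_sum fun t _ => ?_
  rw [← sum_add_distrib]
  refine sum_le_sum fun x0 _ => ?_
  have e : ∀ j ∈ range K, In K M (p (j + 1) (cP o x0 (j + 1))) (fun y =>
      GA (A x0) (b x0) (C x0) (R x0) j (j + 1) y -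
        GA (A x0) (b x0) (C x0) (R x0) (j + 1) (j + 1) y) =
      In K M (p (j + 1) (cP o x0 (j + 1))) (fun y =>
        GA (A x0) (b x0) (C x0) (R1 x0) j (j + 1) y -
          GA (A x0) (b x0) (C x0) (R1 x0) (j + 1) (j + 1) y) +
      In K M (p (j + 1) (cP o x0 (j + 1))) (fun y =>
        GA (A x0) (b x0) (C x0) (R2 x0) j (j + 1) y -
          GA (A x0) (b x0) (C x0) (R2 x0) (j + 1) (j + 1) y) := by
    intro j _
    have e1 : R x0 = fun j z x => R1 x0 j z x + R2 x0 j z x := by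
      funext j z x
      exact h x0 j z x
    unfold H352.In
    rw [← sum_add_distrib]
    refine sum_congr rfl fun y _ => ?_
    beta_reduce
    rw [e1, GA_add, GA_add]
    ring
  rw [sum_congr rfl e, sum_add_distrib]
  exact abs_add_le _ _

/-- the flow part is the Abel sums of the slot of the skeleton -/
theorem NTFf_qA (l : ℝ) (o : ℤ) (Al : ℕ → Pt → Prop) (K : ℕ) (x : Pt) (u : ℤ → ℤ → ι → ℝ)
    (A : FamA) (b C : FamV ι) (sg : ℕ → Pt → ℝ) :
    NTFf ι l o Al K x u A b C sg = qA o K (cx K x) (sl Al o K (cx K x) sg l u) A b C := by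
  have h1 : NTFf ι l o Al K x u A b C sg = TFf ι Al o K (cx K x) sg l u A b C := rfl
  rw [h1, TFf_abel]
  rfl

omit [Fintype ι] [DecidableEq ι] in
theorem Rm_add (Mx : ℕ → ℤ → Matrix ι ι ℝ) (o x1 : ℤ) (s1 s2 : ℕ → ℤ → ℤ → ℝ) (n j : ℕ)
    (x0 p : ℤ) : Rm Mx o x1 (fun k a b => s1 k a b + s2 k a b) n j x0 p =
      Rm Mx o x1 s1 n j x0 p + Rm Mx o x1 s2 n j x0 p := by
  unfold H841.Rm
  rw [← sum_add_distrib]
  refine sum_congr rfl fun i _ => ?_
  unfold H841.Lm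
  rw [← add_smul, add_mul]

theorem slG_add (S1 S2 : ℤ → ℕ → ℤ → ℤ → ℝ) (o : ℤ) (l : ℝ) (K : ℕ) (M : Pt)
    (u : ℤ → ℤ → ι → ℝ) (x0 : ℤ) (j : ℕ) (z x : ℤ) :
    slG (fun x k a b => S1 x k a b + S2 x k a b) o l K M u x0 j z x =
      slG S1 o l K M u x0 j z x + slG S2 o l K M u x0 j z x := by
  unfold slG
  exact Rm_add _ _ _ _ _ _ _ _ _

/-! ### The term of scale `0` -/

/-- **The term of scale `0`, every slot.** -/
theorem leaf0_row : PartRow FD fun _ι _ _ _o K M R A b C => q0 K M R A b C := by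
  have hz : ∀ (ι : Type) [Fintype ι] [DecidableEq ι] (q : H401.Num) (n : ℕ) (ez : ℝ)
      (F1 F2 F3 : ℕ → Pt → ℝ) (o : ℤ) (K : ℕ) (x : Pt) (s r : ℝ) (U : Tri) (g : ℤ → ℤ → ℝ)
      (u v : ℤ → ℤ → ι → ℝ) (A : FamA) (b C : FamV ι) (R : Slt ι),
      FD ι q n ez F1 F2 F3 o K x s r U g u v A b C → q0 K (cx K x) R A b C = 0 := by
    intro ι _ _ q n ez F1 F2 F3 o K x s r U g u v A b C R hD
    obtain ⟨Q1, Q2, Q3, v', h⟩ := hD
    unfold q0
    refine sum_eq_zero fun t' _ => sum_eq_zero fun x0 _ => ?_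
    have e0 : GA (A x0) (b x0) (C x0) (R x0) 0 0 = fun _ => 0 := by
      funext y
      unfold H677.GA
      rw [h.z0A, zero_mul]
    rw [e0]
    unfold H352.In
    simp
  intro a _ _
  refine ⟨1, one_pos, fun e0 _ _ => ⟨1, one_pos, fun k8 _ _ => ⟨1, one_pos, fun k3 _ _ =>
    ⟨1, 1, 1, 1, one_pos, one_pos, one_pos, one_pos,
    fun c _ _ d _ _ Kt e cP L _ _ _ _ CD _ => ⟨0, le_rfl, ?_⟩⟩⟩⟩⟩
  intro t ht ht1 n ez F1 F2 F3 h1 h3 h2 o ho K hKn x ι _ _ s r U g u v hs hr hcls A b C hD S hS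
  refine (le_of_eq (hz ι _ n ez F1 F2 F3 o K x s r U g u v A b C _ hD)).trans (le_of_eq ?_)
  rw [zero_mul, zero_mul]

/-! ### The masked slot -/

/-- the signs of the masked slot, in the data of one class -/
abbrev Msk : Type 1 :=
  ∀ (ι : Type) [Fintype ι] [DecidableEq ι], H401.Num → ℤ → ℕ → Pt → ℝ → ℝ → Tri →
    (ℤ → ℤ → ι → ℝ) → (ℕ → Pt → ℝ) → ℤ → ℕ → ℤ → ℤ → ℝ

/-- the signs of the slot of the skeleton -/
def mk1 : Msk := fun _ι _ _ q o K x _s _r U _u sg => sR (q.al U K) o K (cx K x) sg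

/-- the stopped part of the signs -/
def mkC (mk : Msk) : Msk := fun ι _ _ q o K x s r U u sg x1 k a b =>
  mk1 ι q o K x s r U u sg x1 k a b - mk ι q o K x s r U u sg x1 k a b

/-- **The price of a functional of slots at the masked slot.** -/
def PartMk (D : Bun) (mk : Msk) (T : FunR) : Prop :=
  PartX fun ι _ _ q n ez F1 F2 F3 o K x s r U g u v B =>
    ∀ (A : FamA) (b C : FamV ι), D ι q n ez F1 F2 F3 o K x s r U g u v A b C →
      ∀ sg : ℕ → Pt → ℝ, (∀ k m, |sg k m| ≤ 1) →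
        T ι o K (cx K x) (slG (mk ι q o K x s r U u sg) o (q.lam s r) K (cx K x) u) A b C ≤ B

/-- signs at most one -/
def Mk1 (mk : Msk) : Prop :=
  ∀ (ι : Type) [Fintype ι] [DecidableEq ι] (q : H401.Num) (o : ℤ) (K : ℕ) (x : Pt) (s r : ℝ) (U : Tri)
    (u : ℤ → ℤ → ι → ℝ) (sg : ℕ → Pt → ℝ), (∀ k m, |sg k m| ≤ 1) →
    ∀ x1 k a b, |mk ι q o K x s r U u sg x1 k a b| ≤ 1

theorem PartRow.mk {D : Bun} {T : FunR} (H : PartRow D T) {mk : Msk} (hmk : Mk1 mk) :
    PartMk D mk T := by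
  refine H401.PartX.mono H ?_
  intro ι _ _ q n ez F1 F2 F3 o K x s r U g u v B _ _ _ _ _ hB A b C hD sg hsg
  exact hB A b C hD _ (hmk ι q o K x s r U u sg hsg)

/-- a smaller bundle -/
theorem PartRow.weaken {D D' : Bun} {T : FunR} (H : PartRow D T)
    (h : ∀ (ι : Type) [Fintype ι] [DecidableEq ι] (q : H401.Num) (n : ℕ) (ez : ℝ)
      (F1 F2 F3 : ℕ → Pt → ℝ) (o : ℤ) (K : ℕ) (x : Pt) (s r : ℝ) (U : Tri) (g : ℤ → ℤ → ℝ)
      (u v : ℤ → ℤ → ι → ℝ) (A : FamA) (b C : FamV ι), 0 < q.t → q.t ≤ 1 → 0 < s → 1 ≤ r →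
      D' ι q n ez F1 F2 F3 o K x s r U g u v A b C →
      D ι q n ez F1 F2 F3 o K x s r U g u v A b C) : PartRow D' T := by
  refine H401.PartX.mono H ?_
  intro ι _ _ q n ez F1 F2 F3 o K x s r U g u v B ht ht1 hs hr _ hB A b C hD S hS
  exact hB A b C (h ι q n ez F1 F2 F3 o K x s r U g u v A b C ht ht1 hs hr hD) S hS

theorem PartMk.weaken {D D' : Bun} {mk : Msk} {T : FunR} (H : PartMk D mk T)
    (h : ∀ (ι : Type) [Fintype ι] [DecidableEq ι] (q : H401.Num) (n : ℕ) (ez : ℝ)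
      (F1 F2 F3 : ℕ → Pt → ℝ) (o : ℤ) (K : ℕ) (x : Pt) (s r : ℝ) (U : Tri) (g : ℤ → ℤ → ℝ)
      (u v : ℤ → ℤ → ι → ℝ) (A : FamA) (b C : FamV ι), 0 < q.t → q.t ≤ 1 → 0 < s → 1 ≤ r →
      D' ι q n ez F1 F2 F3 o K x s r U g u v A b C →
      D ι q n ez F1 F2 F3 o K x s r U g u v A b C) : PartMk D' mk T := by
  refine H401.PartX.mono H ?_
  intro ι _ _ q n ez F1 F2 F3 o K x s r U g u v B ht ht1 hs hr _ hB A b C hD sg hsg
  exact hB A b C (h ι q n ez F1 F2 F3 o K x s r U g u v A b C ht ht1 hs hr hD) sg hsg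

theorem PartMk.add {D : Bun} {mk1 mk2 mk : Msk} {T1 T2 T : FunR} (H1 : PartMk D mk1 T1)
    (H2 : PartMk D mk2 T2)
    (h : ∀ (ι : Type) [Fintype ι] [DecidableEq ι] (q : H401.Num) (o : ℤ) (K : ℕ) (x : Pt) (s r : ℝ)
      (U : Tri) (u : ℤ → ℤ → ι → ℝ) (A : FamA) (b C : FamV ι) (sg : ℕ → Pt → ℝ),
      T ι o K (cx K x) (slG (mk ι q o K x s r U u sg) o (q.lam s r) K (cx K x) u) A b C ≤
      T1 ι o K (cx K x) (slG (mk1 ι q o K x s r U u sg) o (q.lam s r) K (cx K x) u) A b C +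
      T2 ι o K (cx K x) (slG (mk2 ι q o K x s r U u sg) o (q.lam s r) K (cx K x) u) A b C) :
    PartMk D mk T := by
  refine PartX.add H1 H2 ?_
  intro ι _ _ q n ez F1 F2 F3 o K x s r U g u v B1 B2 B _ _ _ _ h1 h2 h3 A b C hD sg hsg
  exact (h ι q o K x s r U u A b C sg).trans ((add_le_add (h1 A b C hD sg hsg)
    (h2 A b C hD sg hsg)).trans h3)

theorem PartMk.scale {D : Bun} {mk : Msk} {T : FunR} {c : ℝ} (hc : 0 ≤ c) (H : PartMk D mk T) :
    PartMk D mk fun ι _ _ o K M R A b C => c * T ι o K M R A b C := by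
  refine H677.Sk.PartX.scale hc H ?_
  intro ι _ _ q n ez F1 F2 F3 o K x s r U g u v B h1 A b C hD sg hsg
  exact mul_le_mul_of_nonneg_left (h1 A b C hD sg hsg) hc

/-- **The Abel sums of the masked slot.** -/
theorem partMk_qA {D : Bun} {mk : Msk}
    (HN : PartMk D mk fun _ι _ _ o K M R A b C => qN o K M R A b C)
    (H0 : PartMk D mk fun _ι _ _ _o K M R A b C => q0 K M R A b C)
    (HB : PartMk D mk fun _ι _ _ _o K M R A b C => qB K M R A b C)
    (HS : PartMk D mk fun _ι _ _ _o K M R A b C => qS K M R A b C)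
    (HM : PartMk D mk fun _ι _ _ _o K M R A b C => qM K M R A b C) :
    PartMk D mk fun _ι _ _ o K M R A b C => qA o K M R A b C := by
  have h1 : PartMk D mk fun _ι _ _ _o K M R A b C => qS K M R A b C + qM K M R A b C :=
    HS.add HM fun ι _ _ q o K x s r U u A b C sg => le_rfl
  have h2 := PartMk.scale (by norm_num : (0 : ℝ) ≤ 8 / 3) h1
  have h3 : PartMk D mk fun _ι _ _ _o K M R A b C => qB K M R A b C +
      8 / 3 * (qS K M R A b C + qM K M R A b C) :=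
    HB.add h2 fun ι _ _ q o K x s r U u A b C sg => le_rfl
  have h4 : PartMk D mk fun _ι _ _ _o K M R A b C => q0 K M R A b C + (qB K M R A b C +
      8 / 3 * (qS K M R A b C + qM K M R A b C)) :=
    H0.add h3 fun ι _ _ q o K x s r U u A b C sg => le_rfl
  refine HN.add h4 fun ι _ _ q o K x s r U u A b C sg => ?_
  exact qA_le o K (cx K x) _ A b C fun x0 z x' => slG_top _ _ _ _ _ _ _ _ _

/-- **The flow part from the masked slot and the stopped part.** -/
theorem partF_mask {D : Bun} {mk : Msk} (hmk : Mk1 mk)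
    (HN : PartRow D fun _ι _ _ o K M R A b C => qN o K M R A b C)
    (H0 : PartRow D fun _ι _ _ _o K M R A b C => q0 K M R A b C)
    (HB : PartRow D fun _ι _ _ _o K M R A b C => qB K M R A b C)
    (HS : PartRow D fun _ι _ _ _o K M R A b C => qS K M R A b C)
    (HM : PartMk D mk fun _ι _ _ _o K M R A b C => qM K M R A b C)
    (HC : PartMk D (mkC mk) fun _ι _ _ o K M R A b C => qA o K M R A b C) :
    PartF D NTFf := by
  have h1 := partMk_qA (HN.mk hmk) (H0.mk hmk) (HB.mk hmk) (HS.mk hmk) HM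
  have h2 : PartMk D mk1 fun _ι _ _ o K M R A b C => qA o K M R A b C := by
    refine h1.add HC fun ι _ _ q o K x s r U u A b C sg => ?_
    refine qA_add o K (cx K x) _ _ _ A b C fun x0 j z x' => ?_
    rw [← slG_add]
    unfold mkC
    simp only [add_sub_cancel]
  refine H401.PartX.mono h2 ?_
  intro ι _ _ q n ez F1 F2 F3 o K x s r U g u v B _ _ _ _ _ hB A b C hD sg hsg
  rw [NTFf_qA, sl_slG]
  exact hB A b C hD sg hsg

end

end Vale.Agent.P141.H924
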