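import Vale.Agent.P141.H460.CStB
import Vale.Agent.P141.H924.RowAb

/-!
# P141, line (A), flow part: the masked slot of the generation `0`, caps `(r / t) ^ α`

* `slg_slG` : the generations are slots with row-level signs; `mk0 α` : the mask;
* `PartX0` : the price of the generation `0`, `PartX0.price : PartX0 → PartX`;
* `partMk_of_g0`, `partMk_qM` : prices at the masked slot from the generation `0`;
* **`part0_qB`** : the births of the masked slot, every `α ≥ 1`, bundle `H460.DB`;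
* **`partF_mask0`** : the flow part from `PartRow qN`, `PartMk qM`, the stopped part.
-/

namespace Vale.Agent.P141.H924

open Finset Matrix
open Vale.Agent.P141.PL (Pt iv hs ix mem_iv ix_ix cb mem_cb cx)
open Vale.Agent.P141.PL.H315 (Tri A2)
open Vale.Agent.P141.H48 (US ES BSl)
open Vale.Agent.P141.H677 (GA RT MT KT GT rt rv cP)
open Vale.Agent.P141.H677.Sk
open Vale.Agent.P141.H841 (Rm Rs Lm)
open Vale.Agent.P141.H401 (StX PartX PartF NTFf Bun)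
open Vale.Agent.P141.H305 (ClsM kapM)
open Vale.Agent.P141.H58 (MxR sR sR_le sl_Rm)
open Vale.Agent.P141.H970.SkG (slg kg eg lg kg_pos eg_pos lg_ge PartXg)
open Vale.Agent.P141.H460 (DB qB_cut slg_SlM en_sum exists_two_pow lam_row' m_eq' sqrt_step xy_le
  cPk)

noncomputable section

open scoped Classical

variable {ι : Type} [Fintype ι] [DecidableEq ι]

/-! ### The generations as slots with row-level signs -/

theorem slg_slG (Al : ℕ → Pt → Prop) (o : ℤ) (K : ℕ) (M : Pt) (sg : ℕ → Pt → ℝ) (l : ℝ)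
    (u : ℤ → ℤ → ι → ℝ) (κ : ℕ → ℝ) (g : ℕ) : slg Al o K M sg l u κ g =
      slG (fun x => H540.sgn Al o K M sg l u κ g x) o l K M u := by
  funext x0 j z x
  unfold H970.SkG.slg slG H540.RG H841.Rm
  refine sum_congr rfl fun i _ => ?_
  unfold H841.Lm
  by_cases h : ((ix (i + 1) z, o - 2 - ix (i + 1) x0 - ix (i + 1) x - ix (i + 1) z,
      ix (i + 1) x) : Pt) ∈ H677.sN Al o K M (2 ^ (i + 1) * ix (i + 1) x0) (i + 1)
  · have h1 := H677.mem_sN.1 h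
    have h2 : ix (K - (i + 1)) (o - 2 - ix (i + 1) x0 - ix (i + 1) x - ix (i + 1) z) = M.2.1 := by
      have h3 := h1.1
      unfold PL.H560.cbs at h3
      rw [mem_product, mem_product, mem_iv, mem_iv, mem_iv] at h3
      exact h3.2.1
    have e1 : H922.ck o x z (i + 1) - ix (i + 1) x0 =
        o - 2 - ix (i + 1) x0 - ix (i + 1) x - ix (i + 1) z := by
      unfold H922.ck
      ring
    have e2 : MxR l K M u x (i + 1) (H922.ck o x z (i + 1) - ix (i + 1) x0) =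
        MT l (KT l u x) (i + 1) (H922.ck o x z (i + 1) - ix (i + 1) x0) := by
      unfold H58.MxR
      rw [if_pos]
      rw [e1]
      exact h2
    rw [e2]
  · have h0 := H540.sgn_off (sg := sg) (l := l) (u := u) (κ := κ) g x (i + 1) (ix (i + 1) x0)
      (ix (i + 1) z) h
    beta_reduce
    rw [h0, zero_mul, zero_smul, zero_smul]

/-- the mask of the generation `0`, caps `(r / t) ^ α` -/
def mk0 (α : ℝ) : Msk := fun _ι _ _ q o K x s r U u sg x1 =>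
  H540.sgn (q.al U K) o K (cx K x) sg (q.lam s r) u (kg q.t r α) 0 x1

theorem mk0_le (α : ℝ) : Mk1 (mk0 α) := by
  intro ι _ _ q o K x s r U u sg hsg x1 k a b
  exact H540.sgn_le hsg 0 x1 k a b

theorem mk0_slg (α : ℝ) (q : H401.Num) (o : ℤ) (K : ℕ) (x : Pt) (s r : ℝ) (U : Tri)
    (u : ℤ → ℤ → ι → ℝ) (sg : ℕ → Pt → ℝ) :
    slG (mk0 α ι q o K x s r U u sg) o (q.lam s r) K (cx K x) u =
      slg (q.al U K) o K (cx K x) sg (q.lam s r) u (kg q.t r α) 0 :=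
  (slg_slG (q.al U K) o K (cx K x) sg (q.lam s r) u (kg q.t r α) 0).symm

/-! ### The price of the generation `0` -/

/-- **the quantifiers of `PartXg`, generation `0` only** -/
def PartX0 (q : ℕ) (θ α : ℝ) (Φ : StX) : Prop :=
  PartXg q θ α fun ι _ _ p n ez F1 F2 F3 o K x s r U g u v γ B =>
    γ = 0 → Φ ι p n ez F1 F2 F3 o K x s r U g u v B

theorem PartXg.nn {q : ℕ} {θ α : ℝ} {Φ : H970.SkG.StG} (H : PartXg q θ α Φ) :
    PartXg q θ α fun ι _ _ p n ez F1 F2 F3 o K x s r U g u v γ B =>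
      Φ ι p n ez F1 F2 F3 o K x s r U g u v γ B ∧ 0 ≤ B := by
  intro a ha ha1
  obtain ⟨es, hes, H⟩ := H a ha ha1
  refine ⟨es, hes, fun e0 he0 he0' => ?_⟩
  obtain ⟨k8, hk8, H⟩ := H e0 he0 he0'
  refine ⟨k8, hk8, fun k8' hk8' hk8'' => ?_⟩
  obtain ⟨k3, hk3, H⟩ := H k8' hk8' hk8''
  refine ⟨k3, hk3, fun k3' hk3' hk3'' => ?_⟩
  obtain ⟨los, c1, d1, hlos, hc1, hd1, H⟩ := H k3' hk3' hk3''
  refine ⟨los, c1, d1, hlos, hc1, hd1,
    fun c' hc' hcc d hd hdd Kt e cP L hK he hcP hL CD hCD => ?_⟩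
  obtain ⟨C, hC, H⟩ := H c' hc' hcc d hd hdd Kt e cP L hK he hcP hL CD hCD
  refine ⟨C, hC, ?_⟩
  intro t ht ht1 n ez F1 F2 F3 h1 h3 h2 o ho K hKn x ι _ _ s r U g u v hs hr hcls γ hγ
  refine ⟨H t ht ht1 n ez F1 F2 F3 h1 h3 h2 o ho K hKn x ι s r U g u v hs hr hcls γ hγ, ?_⟩
  have hr0 : 0 < r := by linarith
  have z1 : 0 ≤ t ^ (1 - los) := (Real.rpow_pos_of_pos ht _).le
  have z2 : 0 ≤ s ^ (5 / 4 : ℝ) := (Real.rpow_pos_of_pos hs _).le
  have z3 : 0 ≤ r ^ los := (Real.rpow_pos_of_pos hr0 _).le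
  have z4 : 0 ≤ √ez := Real.sqrt_nonneg _
  have z5 : 0 ≤ lg t r γ := le_trans zero_le_one (lg_ge ht ht1 hr γ)
  have z6 : 0 ≤ eg c' e0 α t r γ ^ θ := Real.rpow_nonneg (eg_pos ht hr c' e0 α γ).le _
  positivity

/-- **The price from the generation `0`.** -/
theorem PartX0.price {q : ℕ} {θ α : ℝ} (hθ : 0 < θ) (hα : 1 ≤ α) {Φ : StX}
    (H : PartX0 q θ α Φ)
    (hm : ∀ (ι : Type) [Fintype ι] [DecidableEq ι] (p : H401.Num) (n : ℕ) (ez : ℝ)
      (F1 F2 F3 : ℕ → Pt → ℝ) (o : ℤ) (K : ℕ) (x : Pt) (s r : ℝ) (U : Tri) (g : ℤ → ℤ → ℝ)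
      (u v : ℤ → ℤ → ι → ℝ) (B1 B : ℝ), B1 ≤ B → Φ ι p n ez F1 F2 F3 o K x s r U g u v B1 →
      Φ ι p n ez F1 F2 F3 o K x s r U g u v B) : PartX Φ := by
  refine (PartXg.nn H).sum hθ hα ?_
  intro ι _ _ p n ez F1 F2 F3 o K x s r U g u v B1 B _ _ _ _ _ h1 h2
  refine hm ι p n ez F1 F2 F3 o K x s r U g u v (B1 0) B ?_ ((h1 0 (Nat.zero_le _)).1 rfl)
  refine le_trans ?_ h2
  exact single_le_sum (f := B1) (fun γ hγ => (h1 γ (by have := mem_range.1 hγ; omega)).2)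
    (mem_range.2 (by omega))

/-- the price of a functional of slots at the generation `0` -/
def PartR0 (q : ℕ) (θ α : ℝ) (D : Bun) (T : FunR) : Prop :=
  PartX0 q θ α fun ι _ _ p n ez F1 F2 F3 o K x s r U g u v B =>
    ∀ (A : FamA) (b C : FamV ι), D ι p n ez F1 F2 F3 o K x s r U g u v A b C →
      ∀ sg : ℕ → Pt → ℝ, (∀ k m, |sg k m| ≤ 1) →
        T ι o K (cx K x) (slg (p.al U K) o K (cx K x) sg (p.lam s r) u (kg p.t r α) 0) A b C ≤ B

/-- the price of all generations gives the one of the generation `0` -/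
theorem partR0_of {q : ℕ} {θ α : ℝ} {D : Bun} {T : FunR} (H : H970.SkG.PartRg q θ α D T) :
    PartR0 q θ α D T := by
  intro a ha ha1
  obtain ⟨es, hes, H⟩ := H a ha ha1
  refine ⟨es, hes, fun e0 he0 he0' => ?_⟩
  obtain ⟨k8, hk8, H⟩ := H e0 he0 he0'
  refine ⟨k8, hk8, fun k8' hk8' hk8'' => ?_⟩
  obtain ⟨k3, hk3, H⟩ := H k8' hk8' hk8''
  refine ⟨k3, hk3, fun k3' hk3' hk3'' => ?_⟩
  obtain ⟨los, c1, d1, hlos, hc1, hd1, H⟩ := H k3' hk3' hk3''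
  refine ⟨los, c1, d1, hlos, hc1, hd1,
    fun c' hc' hcc d hd hdd Kt e cP L hK he hcP hL CD hCD => ?_⟩
  obtain ⟨C, hC, H⟩ := H c' hc' hcc d hd hdd Kt e cP L hK he hcP hL CD hCD
  refine ⟨C, hC, ?_⟩
  intro t ht ht1 n ez F1 F2 F3 h1 h3 h2 o ho K hKn x ι _ _ s r U g u v hs hr hcls γ hγ hγ0
  subst hγ0
  exact H t ht ht1 n ez F1 F2 F3 h1 h3 h2 o ho K hKn x ι s r U g u v hs hr hcls 0 hγ

/-- **The price at the masked slot from the generation `0`.** -/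
theorem partMk_of_g0 {q : ℕ} {θ α : ℝ} (hθ : 0 < θ) (hα : 1 ≤ α) {D : Bun} {T : FunR}
    (H : PartR0 q θ α D T) : PartMk D (mk0 α) T := by
  have h1 : PartX fun ι _ _ p n ez F1 F2 F3 o K x s r U g u v B =>
    ∀ (A : FamA) (b C : FamV ι), D ι p n ez F1 F2 F3 o K x s r U g u v A b C →
      ∀ sg : ℕ → Pt → ℝ, (∀ k m, |sg k m| ≤ 1) →
        T ι o K (cx K x) (slg (p.al U K) o K (cx K x) sg (p.lam s r) u (kg p.t r α) 0) A b C ≤
          B := by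
    refine PartX0.price hθ hα H ?_
    intro ι _ _ p n ez F1 F2 F3 o K x s r U g u v B1 B hB h A b C hD sg hsg
    exact (h A b C hD sg hsg).trans hB
  refine H401.PartX.mono h1 ?_
  intro ι _ _ q n ez F1 F2 F3 o K x s r U g u v B _ _ _ _ _ h A b C hD sg hsg
  rw [mk0_slg]
  exact h A b C hD sg hsg

/-- the price of the generation `0` on every plane of every grid -/
def PartG0 (q : ℕ) (θ α : ℝ) (D : Bun) (T : FunG) : Prop :=
  PartX0 q θ α fun ι _ _ p n ez F1 F2 F3 o K x s r U g u v B =>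
    ∀ (A : FamA) (b C : FamV ι), D ι p n ez F1 F2 F3 o K x s r U g u v A b C →
      ∀ sg : ℕ → Pt → ℝ, (∀ k m, |sg k m| ≤ 1) → ∀ h ∈ cb K 0, ∀ j ∈ Icc (0 : ℤ) 2,
        ∀ e ∈ H795.E8, T ι K (cx K x)
          (slg (p.al U K) o K (cx K x) sg (p.lam s r) u (kg p.t r α) 0) A b C h j e ≤ B

/-- **The node forms of the masked slot from the planes of the grids, generation `0`.** -/
theorem partMk_qM {q : ℕ} {θ α : ℝ} (hθ : 0 < θ) (hα : 1 ≤ α) {D : Bun}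
    (H : PartG0 q θ α D fun _ι _ _ K M R A b C h j e => FM1 K M R A b C h j e) :
    PartMk D (mk0 α) fun _ι _ _ _o K M R A b C => qM K M R A b C := by
  have h1 : PartX fun ι _ _ p n ez F1 F2 F3 o K x s r U g u v B =>
    ∀ (A : FamA) (b C : FamV ι), D ι p n ez F1 F2 F3 o K x s r U g u v A b C →
      ∀ sg : ℕ → Pt → ℝ, (∀ k m, |sg k m| ≤ 1) → ∀ h ∈ cb K 0, ∀ j ∈ Icc (0 : ℤ) 2,
        ∀ e ∈ H795.E8, FM1 K (cx K x)
          (slg (p.al U K) o K (cx K x) sg (p.lam s r) u (kg p.t r α) 0) A b C h j e ≤ B := by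
    refine PartX0.price hθ hα H ?_
    intro ι _ _ p n ez F1 F2 F3 o K x s r U g u v B1 B hB h A b C hD sg hsg hh hhh j hj e he
    exact (h A b C hD sg hsg hh hhh j hj e he).trans hB
  refine H677.Sk.PartX.scale (by norm_num : (0 : ℝ) ≤ 24) h1 ?_
  intro ι _ _ q n ez F1 F2 F3 o K x s r U g u v B h A b C hD sg hsg
  rw [mk0_slg]
  exact qM_le K (cx K x) _ A b C (h A b C hD sg hsg)

/-! ### The births -/

/-- **the energy of the generation `0` at class data**, every `α` -/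
theorem slg0_vec {K : ℕ} {x : Pt} {s r P κ0 : ℝ} {U : Tri} {g : ℤ → ℤ → ℝ}
    {u v : ℤ → ℤ → ι → ℝ} (C : ClsM K x s r P κ0 U g u v) {t l L c e0 α : ℝ} (ht : 0 < t)
    (hr : 1 ≤ r) (hl : 0 < l)
    (hm : P / (2 * l) = L / 2 * (t ^ (-c) * (t / r) ^ e0)) (hL : 0 ≤ L)
    {Al : ℕ → Pt → Prop} {o : ℤ} {sg : ℕ → Pt → ℝ}
    (hsg : ∀ k m, |sg k m| ≤ 1) (t0 z x1 : ℤ) (hx1 : x1 ∈ iv K (ix K x.1)) (w : ι → ℝ) :
    ∑ x0 ∈ iv K t0, (slg Al o K (cx K x) sg l u (kg t r α) 0 x0 0 z x1 *ᵥ w) ⬝ᵥ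
      (slg Al o K (cx K x) sg l u (kg t r α) 0 x0 0 z x1 *ᵥ w) ≤
      2 ^ K * ((L * eg c e0 α t r 0) * (w ⬝ᵥ w)) := by
  have hr0 : 0 < r := by linarith
  have hw : 0 ≤ w ⬝ᵥ w := H43.nsq_nonneg w
  have hx : x1 ∈ PL.H315.iv K x.1 := hx1
  have hone : ∀ f : ℤ → ℝ, ∑ t ∈ ({t0} : Finset ℤ), ∑ x0 ∈ iv K t, f x0 =
      ∑ x0 ∈ iv K t0, f x0 := fun f => sum_singleton _ _
  have hmean : ∀ (p : ℤ) (f : ℤ → ℝ), ((2 : ℝ) ^ K)⁻¹ * ∑ y ∈ iv K (ix K p), f y =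
      PL.H315.avg (PL.H315.iv K p) f := by
    intro p f
    unfold PL.H315.avg
    have : ((PL.H315.iv K p).card : ℝ) = 2 ^ K := by
      change ((iv K (ix K p)).card : ℝ) = 2 ^ K
      rw [PL.card_iv]
      push_cast
      rfl
    rw [this]
    rfl
  have h0 := H540.RG_end (Al := Al) (o := o) (K := K) (P := cx K x) (sg := sg) (u := u)
    (κ := kg t r α) hl hsg 0 {t0} z x1 w
  rw [hone] at h0
  refine h0.trans ?_
  refine mul_le_mul_of_nonneg_left ?_ (by positivity)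
  have h1 : w ⬝ᵥ GT u x1 K (cx K x).2.1 *ᵥ w ≤ P * (w ⬝ᵥ w) := by
    rw [H677.GT_form]
    have h2 := C.u_pot x1 hx w
    rw [← hmean] at h2
    exact h2
  have h4 := mul_le_mul_of_nonneg_left h1 (by positivity : (0 : ℝ) ≤ (2 * l)⁻¹)
  have he : 0 ≤ t ^ (-c) * (t / r) ^ e0 :=
    mul_nonneg (Real.rpow_nonneg ht.le _) (Real.rpow_nonneg (by positivity) _)
  refine h4.trans ?_
  have h5 : (2 * l)⁻¹ * (P * (w ⬝ᵥ w)) = (P / (2 * l)) * (w ⬝ᵥ w) := by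
    field_simp
  rw [h5, hm]
  show L / 2 * (t ^ (-c) * (t / r) ^ e0) * (w ⬝ᵥ w) ≤ L * (t ^ (-c) * (t / r) ^ e0) * (w ⬝ᵥ w)
  refine mul_le_mul_of_nonneg_right ?_ hw
  exact mul_le_mul_of_nonneg_right (by linarith) he

/-- **the numbers of one slot**, cap `k ≥ r / t`, energy `E ≥ k ^ (-6)` -/
theorem num0 {t r s ez e Lm th Ce Pk d k3 d0 k E G : ℝ} {h : ℕ} (ht : 0 < t)
    (ht1 : t ≤ 1) (hr : 1 ≤ r) (hs : 0 < s) (hez : 0 ≤ ez) (he : 0 ≤ e) (hCe : 0 ≤ Ce)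
    (hPk : 0 ≤ Pk) (hd : 0 < d) (hdd : d ≤ d0) (hd1 : d ≤ 1)
    (hLm : Lm = t ^ (-d)) (hth : th ^ 2 = t ^ (2 - 2 * k3) * √s * r ^ (2 * k3))
    (hkρ : r / t ≤ k) (hE0 : 0 < E) (hEk : (k ^ 6)⁻¹ ≤ E) (hG1 : 1 ≤ G)
    (hkG : 2 + 13 * Real.log k ≤ 13 * G) (K : ℕ) : ∃ q : ℕ,
    126 * (√(((1 + h * q) * (2 * ez * ((Ce * E) * s)) +
        2 * ez * ((k + 1) ^ 2 * (4 * Lm * s)) * Pk * (1 / 2) ^ q) * 8 ^ K) *
        √(4 * (th ^ 2) * (4 * e * Lm * s) * (Pk * 8 ^ K))) ≤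
    126 * √(416 * ((1 + h) * Ce + 16 * Pk) * e * Pk) *
      (t ^ (1 - (k3 + d0 / 2)) * s ^ (5 / 4 : ℝ) * √ez * 8 ^ K) * r ^ (k3 + d0 / 2) *
        (G ^ 1 * E ^ (1 / 2 : ℝ)) := by
  have hr0 : 0 < r := by linarith
  have hρ : 1 ≤ r / t := by
    rw [le_div_iff₀ ht]
    linarith
  have hρ0 : 0 < r / t := by linarith
  have hk1 : 1 ≤ k := hρ.trans hkρ
  have hk0 : 0 < k := by linarith
  obtain ⟨q, hq1, hq2⟩ := exists_two_pow hk1
  refine ⟨q, ?_⟩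
  have hqG : 1 + (q : ℝ) ≤ 13 * G := by linarith
  have hLm0 : 0 < Lm := by
    rw [hLm]
    exact Real.rpow_pos_of_pos ht _
  have hLk : Lm ≤ k := by
    rw [hLm]
    have h1 : t ^ (-d) ≤ t ^ (-1 : ℝ) := Real.rpow_le_rpow_of_exponent_ge ht ht1 (by linarith)
    have h2 : t ^ (-1 : ℝ) ≤ r / t := by
      rw [Real.rpow_neg_one, div_eq_mul_inv]
      exact le_mul_of_one_le_left (by positivity) hr
    linarith
  -- the tail
  have htail : (k + 1) ^ 2 * (4 * Lm * s) * (1 / 2) ^ q ≤ 16 * (E * s) := by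
    have h1 : (k + 1) ^ 2 ≤ 4 * k ^ 2 := by nlinarith
    have h2 : (1 / 2 : ℝ) ^ q ≤ (k ^ 9)⁻¹ := by
      rw [one_div, inv_pow]
      exact inv_anti₀ (by positivity) hq1
    have h3 : (k + 1) ^ 2 * (4 * Lm * s) ≤ 4 * k ^ 2 * (4 * k * s) := by
      refine mul_le_mul h1 ?_ (by positivity) (by positivity)
      exact mul_le_mul_of_nonneg_right (by linarith) hs.le
    calc (k + 1) ^ 2 * (4 * Lm * s) * (1 / 2) ^ q
        ≤ 4 * k ^ 2 * (4 * k * s) * (k ^ 9)⁻¹ :=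
          mul_le_mul h3 h2 (by positivity) (by positivity)
      _ = 16 * ((k ^ 6)⁻¹ * s) := by
          field_simp
          ring
      _ ≤ 16 * (E * s) := by
          refine mul_le_mul_of_nonneg_left ?_ (by norm_num)
          exact mul_le_mul_of_nonneg_right hEk hs.le
  set Q0 : ℝ := (1 + h) * Ce + 16 * Pk with hQ0
  have hQ00 : 0 ≤ Q0 := by positivity
  have h8 : (0 : ℝ) < 8 ^ K := by positivity
  have hX : ((1 + h * q) * (2 * ez * ((Ce * E) * s)) +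
        2 * ez * ((k + 1) ^ 2 * (4 * Lm * s)) * Pk * (1 / 2) ^ q) * 8 ^ K ≤
      26 * Q0 * ez * s * E * G * 8 ^ K := by
    refine mul_le_mul_of_nonneg_right ?_ h8.le
    have h1 : (1 + h * (q : ℝ)) ≤ (1 + h) * (13 * G) := by
      have hh : (0 : ℝ) ≤ h := Nat.cast_nonneg _
      have hq0 : (0 : ℝ) ≤ q := Nat.cast_nonneg _
      nlinarith
    have h2 : (1 + h * (q : ℝ)) * (2 * ez * ((Ce * E) * s)) ≤
        (1 + h) * (13 * G) * (2 * ez * ((Ce * E) * s)) :=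
      mul_le_mul_of_nonneg_right h1 (by positivity)
    have h3 : 2 * ez * ((k + 1) ^ 2 * (4 * Lm * s)) * Pk * (1 / 2) ^ q ≤
        2 * ez * Pk * (16 * (E * s)) := by
      have h4 : 2 * ez * ((k + 1) ^ 2 * (4 * Lm * s)) * Pk * (1 / 2) ^ q =
          2 * ez * Pk * ((k + 1) ^ 2 * (4 * Lm * s) * (1 / 2) ^ q) := by ring
      rw [h4]
      exact mul_le_mul_of_nonneg_left htail (by positivity)
    have h5 : 2 * ez * Pk * (16 * (E * s)) ≤ 2 * ez * Pk * (16 * (E * s)) * (13 * G) := by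
      refine le_mul_of_one_le_right (by positivity) ?_
      linarith
    calc _ ≤ (1 + h) * (13 * G) * (2 * ez * ((Ce * E) * s)) +
          2 * ez * Pk * (16 * (E * s)) * (13 * G) := by linarith
      _ = 26 * Q0 * ez * s * E * G := by
          rw [hQ0]
          ring
  have hX0 : 0 ≤ ((1 + h * q) * (2 * ez * ((Ce * E) * s)) +
        2 * ez * ((k + 1) ^ 2 * (4 * Lm * s)) * Pk * (1 / 2) ^ q) * 8 ^ K := by
    positivity
  -- squares
  set a : ℝ := t ^ (1 - (k3 + d0 / 2)) with ha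
  set b : ℝ := s ^ (5 / 4 : ℝ) with hb
  set f : ℝ := r ^ (k3 + d0 / 2) with hf
  have ha0 : 0 ≤ a := Real.rpow_nonneg ht.le _
  have hb0 : 0 ≤ b := Real.rpow_nonneg hs.le _
  have hf0 : 0 ≤ f := Real.rpow_nonneg hr0.le _
  have hb2 : b ^ 2 = s ^ 2 * √s := by
    rw [hb, ← Real.rpow_natCast (s ^ (5 / 4 : ℝ)), ← Real.rpow_mul hs.le, Real.sqrt_eq_rpow,
      ← Real.rpow_natCast s 2, ← Real.rpow_add hs]
    norm_num
  have hE2 : (E ^ (1 / 2 : ℝ)) ^ 2 = E := by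
    rw [← Real.sqrt_eq_rpow, Real.sq_sqrt hE0.le]
  have hez2 : √ez ^ 2 = ez := Real.sq_sqrt hez
  have hta : t ^ (2 - 2 * k3) * Lm ≤ a ^ 2 := by
    rw [ha, hLm, ← Real.rpow_natCast (t ^ (1 - (k3 + d0 / 2))), ← Real.rpow_mul ht.le,
      ← Real.rpow_add ht]
    refine Real.rpow_le_rpow_of_exponent_ge ht ht1 ?_
    push_cast
    linarith
  have hrf : r ^ (2 * k3) ≤ f ^ 2 := by
    rw [hf, ← Real.rpow_natCast (r ^ (k3 + d0 / 2)), ← Real.rpow_mul hr0.le]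
    refine Real.rpow_le_rpow_of_exponent_le hr ?_
    push_cast
    linarith
  have hY : 4 * (th ^ 2) * (4 * e * Lm * s) * (Pk * 8 ^ K) ≤
      16 * e * Pk * (a ^ 2 * f ^ 2 * √s) * s * 8 ^ K := by
    rw [hth]
    have h1 : t ^ (2 - 2 * k3) * Lm * (√s * r ^ (2 * k3)) ≤ a ^ 2 * (√s * f ^ 2) := by
      refine mul_le_mul hta ?_ ?_ (sq_nonneg _)
      · exact mul_le_mul_of_nonneg_left hrf (Real.sqrt_nonneg _)
      · exact mul_nonneg (Real.sqrt_nonneg _) (Real.rpow_nonneg hr0.le _)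
    have h2 : (0 : ℝ) ≤ 16 * e * Pk * s * 8 ^ K := by positivity
    have h3 := mul_le_mul_of_nonneg_left h1 h2
    calc _ = 16 * e * Pk * s * 8 ^ K * (t ^ (2 - 2 * k3) * Lm * (√s * r ^ (2 * k3))) := by ring
      _ ≤ 16 * e * Pk * s * 8 ^ K * (a ^ 2 * (√s * f ^ 2)) := h3
      _ = _ := by ring
  have hT0 : 0 ≤ (a * b * √ez * 8 ^ K) * f * (G ^ 1 * E ^ (1 / 2 : ℝ)) := by
    have : 0 ≤ E ^ (1 / 2 : ℝ) := Real.rpow_nonneg hE0.le _
    have hG0 : 0 ≤ G := by linarith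
    have : 0 ≤ √ez := Real.sqrt_nonneg _
    positivity
  have hY0 : 0 ≤ 4 * (th ^ 2) * (4 * e * Lm * s) * (Pk * 8 ^ K) := by positivity
  have hfin := sqrt_step hX0 (by positivity : (0 : ℝ) ≤ 416 * Q0 * e * Pk) hT0
    (xy_le hX hY hY0 hQ00 hez he hPk hs.le (Real.sqrt_nonneg s) hE0.le hG1 h8.le hb2 hE2 hez2)
  refine hfin.trans (le_of_eq ?_)
  ring

/-- the cap and the energy of the generation `0` -/
theorem kg0_facts {t r c e0 α : ℝ} (ht : 0 < t) (ht1 : t ≤ 1) (hr : 1 ≤ r) (hc : 0 ≤ c)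
    (he1 : e0 ≤ 1) (hα : 1 ≤ α) : r / t ≤ kg t r α 0 ∧ ((kg t r α 0) ^ 6)⁻¹ ≤ eg c e0 α t r 0 ∧
      2 + 13 * Real.log (kg t r α 0) ≤ 13 * (α * lg t r 0) := by
  have hr0 : 0 < r := by linarith
  have hρ : 1 ≤ r / t := by
    rw [le_div_iff₀ ht]
    linarith
  have hρ0 : 0 < r / t := by linarith
  have e1 : kg t r α 0 = (r / t) ^ α := by
    unfold H970.SkG.kg
    rw [pow_zero, mul_one]
  have h1 : r / t ≤ (r / t) ^ α := by
    have := Real.rpow_le_rpow_of_exponent_le hρ hα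
    rwa [Real.rpow_one] at this
  have hlog : 0 ≤ Real.log (r / t) := Real.log_nonneg hρ
  refine ⟨by rw [e1]; exact h1, ?_, ?_⟩
  · rw [e1]
    show (((r / t) ^ α) ^ 6)⁻¹ ≤ t ^ (-c) * (t / r) ^ e0
    have h2 : (1 : ℝ) ≤ t ^ (-c) := Real.one_le_rpow_of_pos_of_le_one_of_nonpos ht ht1 (by linarith)
    have h3 : (t / r) ^ (1 : ℝ) ≤ (t / r) ^ e0 := by
      refine Real.rpow_le_rpow_of_exponent_ge (div_pos ht hr0) ?_ he1
      rw [div_le_one hr0]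
      linarith
    rw [Real.rpow_one] at h3
    have h4 : (((r / t) ^ α) ^ 6)⁻¹ ≤ t / r := by
      have h5 : r / t ≤ ((r / t) ^ α) ^ 6 :=
        h1.trans (le_self_pow₀ (hρ.trans h1) (by norm_num))
      have h6 : (((r / t) ^ α) ^ 6)⁻¹ ≤ (r / t)⁻¹ := inv_anti₀ hρ0 h5
      rwa [inv_div] at h6
    have h6 : 0 ≤ (t / r) ^ e0 := Real.rpow_nonneg (by positivity) _
    calc (((r / t) ^ α) ^ 6)⁻¹ ≤ t / r := h4
      _ ≤ (t / r) ^ e0 := h3
      _ ≤ t ^ (-c) * (t / r) ^ e0 := le_mul_of_one_le_left h6 h2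
  · rw [e1, Real.log_rpow hρ0]
    unfold H970.SkG.lg
    push_cast
    nlinarith

/-- **The births of the masked slot**, every `α ≥ 1`. -/
theorem part0_qB {α : ℝ} (hα : 1 ≤ α) :
    PartR0 1 (1 / 2) α DB fun _ι _ _ _o K M R A b C => qB K M R A b C := by
  intro a ha ha1
  refine ⟨1, one_pos, fun e0 he0 he0' => ⟨1, one_pos, fun k8 hk8 hk8' => ⟨e0 / 16, by positivity,
    fun k3 hk3 hk3' => ?_⟩⟩⟩
  refine ⟨k3 + (e0 / 16) / 2, 1, e0 / 16, by linarith, one_pos, by positivity,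
    fun c hc hcc d hd hdd Kt e cP L hK he hcP hL CD hCD => ?_⟩
  set h : ℕ := ⌈2 * cPk cP⌉₊ + 1 with hh
  have hPk : 0 ≤ cPk cP := by
    unfold H460.cPk
    positivity
  have hPh : 2 * cPk cP ≤ (h : ℝ) := by
    rw [hh]
    push_cast
    have := Nat.le_ceil (2 * cPk cP)
    linarith
  refine ⟨126 * √(416 * ((1 + h) * L + 16 * cPk cP) * e * cPk cP) * α, by positivity, ?_⟩
  intro t ht ht1 n ez F1 F2 F3 h1 h3 h2 o ho K hKn x ι _ _ s r U g u v hs hr hcls γ hγ hγ0 A b C hD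
    sg hsg
  subst hγ0
  obtain ⟨Q1, Q2, Q3, q1, q2, q3, rfl, rfl, rfl⟩ := hD
  set p : H401.Num := ⟨a, e0, k8, k3, c, d, Kt, e, cP, L, CD, t⟩ with hp
  have hl : 0 < p.lam s r := H401.Num.lam_pos (p := p) ht hs hr
  have hm := m_eq' (q := p) (s := s) (r := r) ht hs hr
  have hez : 0 ≤ ez := h2.1
  have hd1 : d ≤ 1 := by linarith
  obtain ⟨f1, f2, f3⟩ := kg0_facts (c := c) (e0 := e0) (α := α) ht ht1 hr hc he0' hα
  have hG1 : 1 ≤ α * lg t r 0 := by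
    have := lg_ge ht ht1 hr 0
    nlinarith
  obtain ⟨q, hq⟩ := num0 (t := t) (r := r) (s := s) (ez := ez) (e := e) (Lm := p.Lm)
    (th := p.th s r) (Ce := L) (Pk := cPk cP) (d := d) (k3 := k3)
    (d0 := e0 / 16) (h := h) (k := kg t r α 0) (E := eg c e0 α t r 0) (G := α * lg t r 0)
    ht ht1 hr hs hez (by linarith) (by linarith) hPk hd hdd hd1
    rfl (H401.Num.th_sq (p := p) ht hs hr) f1 (eg_pos ht hr c e0 α 0) f2 hG1 f3 K
  have hE0 : 0 ≤ L * eg c e0 α t r 0 :=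
    mul_nonneg (by linarith) (eg_pos ht hr c e0 α 0).le
  have main := qB_cut (p := p) q1 q2 q3 hKn hcP (by linarith) hez
    (Real.rpow_pos_of_pos ht _).le s r g
    (fun a' ha' y hy => hcls.u_le a' ha' y hy) (fun a' ha' z hz => hcls.v_le a' ha' z hz)
    hcls.U_u2 hcls.U_v2 (slg_SlM (p.al U K) o K (cx K x) sg (p.lam s r) u (kg t r α) 0)
    (kc := (kg t r α 0 + 1) ^ 2) (by positivity)
    (fun j hj x0 z x1 w => H540.RG_cap hl ho hsg (fun g' => kg_pos ht hr α g') 0 hj x0 z x1 w)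
    (E := (L * eg c e0 α t r 0) * s)
    (fun t0 _ => en_sum hE0 (fun z x1 hx1 w => slg0_vec hcls ht hr hl hm (by linarith) hsg
      t0 z x1 hx1 w) (fun a' ha' z hz => hcls.v_le a' ha' z hz) hcls.U_v2)
    (by omega) hPh q
  refine main.trans (hq.trans (le_of_eq ?_))
  ring

/-- **The births at the masked slot.** -/
theorem partMk_qB {α : ℝ} (hα : 1 ≤ α) :
    PartMk DB (mk0 α) fun _ι _ _ _o K M R A b C => qB K M R A b C :=
  partMk_of_g0 (by norm_num) hα (part0_qB hα)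

/-- **The flow part from the masked slot of the generation `0`.** -/
theorem partF_mask0 {D : Bun} {α : ℝ} (hα : 1 ≤ α)
    (hFD : ∀ (ι : Type) [Fintype ι] [DecidableEq ι] (q : H401.Num) (n : ℕ) (ez : ℝ)
      (F1 F2 F3 : ℕ → Pt → ℝ) (o : ℤ) (K : ℕ) (x : Pt) (s r : ℝ) (U : Tri) (g : ℤ → ℤ → ℝ)
      (u v : ℤ → ℤ → ι → ℝ) (A : FamA) (b C : FamV ι), 0 < q.t → q.t ≤ 1 → 0 < s → 1 ≤ r →
      D ι q n ez F1 F2 F3 o K x s r U g u v A b C →
      FD ι q n ez F1 F2 F3 o K x s r U g u v A b C)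
    (hDB : ∀ (ι : Type) [Fintype ι] [DecidableEq ι] (q : H401.Num) (n : ℕ) (ez : ℝ)
      (F1 F2 F3 : ℕ → Pt → ℝ) (o : ℤ) (K : ℕ) (x : Pt) (s r : ℝ) (U : Tri) (g : ℤ → ℤ → ℝ)
      (u v : ℤ → ℤ → ι → ℝ) (A : FamA) (b C : FamV ι), 0 < q.t → q.t ≤ 1 → 0 < s → 1 ≤ r →
      D ι q n ez F1 F2 F3 o K x s r U g u v A b C →
      DB ι q n ez F1 F2 F3 o K x s r U g u v A b C)
    (HN : PartRow D fun _ι _ _ o K M R A b C => qN o K M R A b C)
    (HM : PartMk D (mk0 α) fun _ι _ _ _o K M R A b C => qM K M R A b C)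
    (HC : PartMk D (mkC (mk0 α)) fun _ι _ _ o K M R A b C => qA o K M R A b C) :
    PartF D NTFf := by
  have hmk := mk0_le α
  have h1 := partMk_qA (HN.mk hmk) ((leaf0_row.weaken hFD).mk hmk) ((partMk_qB hα).weaken hDB)
    ((leafS_row.weaken hFD).mk hmk) HM
  have h2 : PartMk D mk1 fun _ι _ _ o K M R A b C => qA o K M R A b C := by
    refine h1.add HC fun ι _ _ q o K x s r U u A b C sg => ?_
    refine qA_add o K (cx K x) _ _ _ A b C fun x0 j z x' => ?_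
    rw [← slG_add]
    unfold mkC
    simp only [add_sub_cancel]
  refine H401.PartX.mono h2 ?_
  intro ι _ _ q n ez F1 F2 F3 o K x s r U g u v B _ _ _ _ _ hB A b C hD sg hsg
  rw [NTFf_qA, sl_slG]
  exact hB A b C hD sg hsg

end

end Vale.Agent.P141.H924
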