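import Vale.Agent.P141.H401.Fin5
import Vale.Agent.P141.H944.RowN2
import Vale.Agent.P141.H924.BirthA

/-!
# P141, line (A): the reserve route, only the generation `0` of the moving slot

* `D0 = FDU ∧ DB`, `mkFU_D0`;
* `PriceB0` : `H939.PriceB` for slots with at least the natural energy; `priceB0_of`;
* `partMk_qM_of_priceB0` : the node forms of the masked slot;
* `partF_resA`, `ce1q_of_resA`, `finalAll_of_resA` : the flow part, the class statement and the final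
  statement from the node forms of the masked slot and the stopped part.
-/

namespace Vale.Agent.P141.H924

open Finset Matrix
open Vale.Agent.P141.PL (Pt iv hs ix mem_iv ix_ix cb mem_cb cx)
open Vale.Agent.P141.PL.H315 (Tri A2)
open Vale.Agent.P141.H48 (US ES BSl)
open Vale.Agent.P141.H795 (E8)
open Vale.Agent.P141.H677 (GT GT_form)
open Vale.Agent.P141.H677.Sk
open Vale.Agent.P141.H401 (StX PartX PartF NTFf Bun PartQ MkFU CStUV CStF DuS DvS)
open Vale.Agent.P141.H305 (ClsM kapM CE1q)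
open Vale.Agent.P141.H970.SkG (slg)
open Vale.Agent.P141.H636 (FDU mkFU_FDU)

noncomputable section

open scoped Classical

set_option linter.unusedVariables false

/-! ### The bundle -/

/-- the flow bundle with small fibres and the definite families -/
def D0 : Bun := fun ι _ _ p n ez F1 F2 F3 o K x s r U g u v A b C =>
  FDU ι p n ez F1 F2 F3 o K x s r U g u v A b C ∧
    H460.DB ι p n ez F1 F2 F3 o K x s r U g u v A b C

theorem mkFU_D0 : MkFU D0 := by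
  have H := mkFU_FDU
  unfold H401.MkFU H401.PartQ at H ⊢
  intro a ha ha1
  obtain ⟨es, hes, H⟩ := H a ha ha1
  refine ⟨es, hes, fun e0 he0 he0' => ?_⟩
  obtain ⟨k8s, hk8s, H⟩ := H e0 he0 he0'
  refine ⟨k8s, hk8s, fun k8 hk8 hk8' => ?_⟩
  obtain ⟨k3s, hk3s, H⟩ := H k8 hk8 hk8'
  refine ⟨k3s, hk3s, fun k3 hk3 hk3' => ?_⟩
  obtain ⟨gam, c1, d0, del, hgam, hc1, hd0, hdel, H⟩ := H k3 hk3 hk3'
  refine ⟨gam, c1, d0, del, hgam, hc1, hd0, hdel, fun c hc hcc d hd hdd Kt e cP L hK he hcP hL => ?_⟩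
  obtain ⟨CD, hCD, C, hC, H⟩ := H c hc hcc d hd hdd Kt e cP L hK he hcP hL
  refine ⟨CD, hCD, C, hC, ?_⟩
  intro t ht ht1 n ez F1 F2 F3 h1 h3 h2 o ho K hKn x ι _ _ s r U g u v hs hr hcls Q1 Q2 Q3 q1 q2 q3
    f1 f2
  exact ⟨H t ht ht1 n ez F1 F2 F3 h1 h3 h2 o ho K hKn x ι s r U g u v hs hr hcls Q1 Q2 Q3
    q1 q2 q3 f1 f2, Q1, Q2, Q3, q1, q2, q3, rfl, rfl, rfl⟩

/-! ### The node forms of the masked slot -/

/-- **`H939.PriceB` for slots with at least the natural energy.** -/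
def PriceB0 (D : Bun) (T : FunG) : Prop :=
  ∀ a : ℝ, 0 < a → a ≤ 1 →
  ∃ es : ℝ, 0 < es ∧ es ≤ 1 ∧ ∀ e0 : ℝ, 0 < e0 → e0 ≤ es →
  ∃ k8s : ℝ, 0 < k8s ∧ ∀ k8 : ℝ, 0 < k8 → k8 ≤ k8s →
  ∃ k3s : ℝ, 0 < k3s ∧ ∀ k3 : ℝ, 0 < k3 → k3 ≤ k3s →
  ∃ (p : ℕ) (θ w b c1 d1 : ℝ), 0 < θ ∧ 2 * w < e0 * θ ∧ 0 ≤ b ∧ 0 < c1 ∧ 0 < d1 ∧
  ∀ c : ℝ, 0 ≤ c → c ≤ c1 → ∀ d : ℝ, 0 < d → d ≤ d1 →
  ∀ Kt e cP L : ℝ, 0 < Kt → 1 ≤ e → 0 ≤ cP → 1 ≤ L → ∀ CD : ℝ, 1 ≤ CD → ∃ C : ℝ, 0 ≤ C ∧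
  ∀ t : ℝ, 0 < t → t ≤ 1 → ∀ (n : ℕ) (ez : ℝ) (F1 F2 F3 : ℕ → Pt → ℝ),
    US n (Kt * t ^ (1 - c)) e cP F1 → US n (Kt * t ^ (1 - c)) e cP F3 → ES n ez cP F2 →
  ∀ o : ℤ, o = 1 ∨ o = -1 → ∀ K ≤ n, ∀ (x : Pt) (ι : Type) [Fintype ι] [DecidableEq ι]
    (s r : ℝ) (U : Tri) (g : ℤ → ℤ → ℝ) (u v : ℤ → ℤ → ι → ℝ), 0 < s → 1 ≤ r →
    ClsM K x s r (L * t ^ (2 - c) * √s) (kapM L t a s r) U g u v →
    ∀ (A : FamA) (b' C' : FamV ι),
      D ι ⟨a, e0, k8, k3, c, d, Kt, e, cP, L, CD, t⟩ n ez F1 F2 F3 o K x s r U g u v A b' C' →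
    ∀ (R : Slt ι) (κ E : ℝ), 1 ≤ κ → L / 2 * (t ^ (-c) * (t / r) ^ e0) ≤ E → E ≤ L + 3780000 →
      SlotN ((⟨a, e0, k8, k3, c, d, Kt, e, cP, L, CD, t⟩ : H401.Num).al U K) o K (cx K x)
        ((⟨a, e0, k8, k3, c, d, Kt, e, cP, L, CD, t⟩ : H401.Num).lam s r) u R κ E →
    ∀ h ∈ cb K 0, ∀ j ∈ Icc (0 : ℤ) 2, ∀ q ∈ E8, T ι K (cx K x) R A b' C' h j q ≤
      C * ((1 + Real.log κ + Real.log (r / t)) ^ p * E ^ θ *
        (t * (r / t) ^ w * t ^ (-(b * (c + d))) * s ^ (5 / 4 : ℝ) * √ez * 8 ^ K))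

/-- the price for all energies -/
theorem priceB0_of {D : Bun} {T : FunG} (H : H939.PriceB D T) : PriceB0 D T := by
  intro a ha ha1
  obtain ⟨es, hes, hes1, H⟩ := H a ha ha1
  refine ⟨es, hes, hes1, fun e0 he0 he0' => ?_⟩
  obtain ⟨k8s, hk8s, H⟩ := H e0 he0 he0'
  refine ⟨k8s, hk8s, fun k8 hk8 hk8' => ?_⟩
  obtain ⟨k3s, hk3s, H⟩ := H k8 hk8 hk8'
  refine ⟨k3s, hk3s, fun k3 hk3 hk3' => ?_⟩
  obtain ⟨p, θ, w, b, c1, d1, hθ, hw, hb, hc1, hd1, H⟩ := H k3 hk3 hk3'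
  refine ⟨p, θ, w, b, c1, d1, hθ, hw, hb, hc1, hd1,
    fun c hc hcc d hd hdd Kt e cP L hK he hcP hL CD hCD => ?_⟩
  obtain ⟨C, hC, H⟩ := H c hc hcc d hd hdd Kt e cP L hK he hcP hL CD hCD
  refine ⟨C, hC, ?_⟩
  intro t ht ht1 n ez F1 F2 F3 h1 h3 h2 o ho K hKn x ι _ _ s r U g u v hs hr hcls A b' C' hD
    R κ E hκ hE hE2 hsl h hh j hj q hq
  have hr0 : 0 < r := by linarith
  have h5 : 0 < L / 2 * (t ^ (-c) * (t / r) ^ e0) := by
    have : 0 < (t / r) ^ e0 := Real.rpow_pos_of_pos (div_pos ht hr0) _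
    have h4 : 0 < t ^ (-c) := Real.rpow_pos_of_pos ht _
    have : 0 < L := by linarith
    positivity
  exact H t ht ht1 n ez F1 F2 F3 h1 h3 h2 o ho K hKn x ι s r U g u v hs hr hcls A b' C' hD
    R κ E hκ (h5.trans_le hE) hE2 hsl h hh j hj q hq

/-- the masked slot at class data -/
theorem slotN_slg0 {ι : Type} [Fintype ι] [DecidableEq ι] {K : ℕ} {x : Pt} {s r P κ0 : ℝ} {U : Tri}
    {g : ℤ → ℤ → ℝ} {u v : ℤ → ℤ → ι → ℝ} (C : ClsM K x s r P κ0 U g u v) {t l α : ℝ} (ht : 0 < t)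
    (hr : 1 ≤ r) (hl : 0 < l) {Al : ℕ → Pt → Prop} {o : ℤ} (ho : o = 1 ∨ o = -1)
    {sg : ℕ → Pt → ℝ} (hsg : ∀ k m, |sg k m| ≤ 1) :
    SlotN Al o K (cx K x) l u (slg Al o K (cx K x) sg l u (H970.SkG.kg t r α) 0)
      (H970.SkG.kg t r α 0 + 1) (P / (2 * l)) := by
  have hκ : ∀ g, 0 < H970.SkG.kg t r α g := fun g => H970.SkG.kg_pos ht hr α g
  refine ⟨⟨fun x1 => H540.sgn Al o K (cx K x) sg l u (H970.SkG.kg t r α) 0 x1, ?_, ?_, ?_⟩,
    ?_, ?_, ?_⟩
  · intro x1 k a b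
    exact H540.sgn_le hsg 0 x1 k a b
  · intro x1 k a b h
    exact H540.sgn_off 0 x1 k a b h
  · intro x0 j' z x1
    rfl
  · intro x0 j' hj' z x1
    exact H540.RG_symm hl 0 hj' x0 z x1
  · intro x0 j' hj' z x1 w
    exact H540.RG_cap hl ho hsg hκ 0 hj' x0 z x1 w
  · intro T z x1 hx1 w
    have hx : x1 ∈ PL.H315.iv K x.1 := by
      rw [H769.iv_pt]
      exact hx1
    refine (H540.RG_end hl hsg 0 T z x1 w).trans ?_
    refine mul_le_mul_of_nonneg_left ?_ (by positivity)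
    have h1 : w ⬝ᵥ GT u x1 K (cx K x).2.1 *ᵥ w ≤ P * (w ⬝ᵥ w) := by
      rw [GT_form, mean_cell]
      have h2 := C.u_pot x1 hx w
      rw [H769.iv_pt] at h2
      exact h2
    have h3 : H43.nsq w = w ⬝ᵥ w := rfl
    rw [h3]
    have h4 := mul_le_mul_of_nonneg_left h1 (by positivity : (0 : ℝ) ≤ (2 * l)⁻¹)
    refine h4.trans (le_of_eq ?_)
    field_simp

/-- **The node forms of the masked slot.** -/
theorem partMk_qM_of_priceB0 {α : ℝ} (hα : 1 ≤ α) {D : Bun}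
    (H : PriceB0 D fun _ι _ _ K M R A b C h j e => FM1 K M R A b C h j e) :
    PartMk D (mk0 α) fun _ι _ _ _o K M R A b C => qM K M R A b C := by
  have main : PartX fun ι _ _ p n ez F1 F2 F3 o K x s r U g u v B =>
      ∀ (A : FamA) (b C : FamV ι), D ι p n ez F1 F2 F3 o K x s r U g u v A b C →
        ∀ sg : ℕ → Pt → ℝ, (∀ k m, |sg k m| ≤ 1) → ∀ h ∈ cb K 0, ∀ j ∈ Icc (0 : ℤ) 2, ∀ e ∈ E8,
        FM1 K (cx K x) (slg (p.al U K) o K (cx K x) sg (p.lam s r) u (H970.SkG.kg p.t r α) 0)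
          A b C h j e ≤ B := by
    refine H186.ClosX.partX_of_gain ?_ ?_
    · intro ι _ _ p n ez F1 F2 F3 o K x s r U g u v B B' hB h A b C hD sg hsg h' hh j hj e he
      exact (h A b C hD sg hsg h' hh j hj e he).trans hB
    intro a ha ha1
    obtain ⟨es, hes, hes1, H⟩ := H a ha ha1
    refine ⟨es, hes, fun e0 he0 he0' => ?_⟩
    obtain ⟨k8s, hk8s, H⟩ := H e0 he0 he0'
    refine ⟨k8s, hk8s, fun k8 hk8 hk8' => ?_⟩
    obtain ⟨k3s, hk3s, H⟩ := H k8 hk8 hk8'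
    refine ⟨k3s, hk3s, fun k3 hk3 hk3' => ?_⟩
    obtain ⟨p, θ, w, b, c1, d1, hθ, hw, hb, hc1, hd1, H⟩ := H k3 hk3 hk3'
    have he01 : e0 ≤ 1 := he0'.trans hes1
    refine ⟨e0 * θ / 2 - w, b, min c1 (e0 / 4), d1, by linarith, hb, lt_min hc1 (by linarith), hd1,
      fun c hc hcc d hd hdd Kt e cP L hK he hcP hL CD hCD => ?_⟩
    obtain ⟨C, hC, H⟩ := H c hc (hcc.trans (min_le_left _ _)) d hd hdd Kt e cP L hK he hcP hL CD
      hCD
    obtain ⟨C2, hC2, H2⟩ := H582.gen_price p hθ he0 he01 (A := 1) (B := α + 2) (C0 := 1)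
      (Lc := L / 2) le_rfl (by linarith) (by norm_num) (by linarith)
    refine ⟨C * C2, by positivity, ?_⟩
    intro t ht ht1 n ez F1 F2 F3 h1 h3 h2 o ho K hKn x ι _ _ s r U g u v hs hr hcls A b' C' hD sg
      hsg h hh j hj q hq
    have hr0 : 0 < r := by linarith
    have hρ : 1 ≤ r / t := by
      rw [le_div_iff₀ ht]
      linarith
    have hρ0 : 0 < r / t := by linarith
    have hlog := Real.log_nonneg hρ
    set N : H401.Num := ⟨a, e0, k8, k3, c, d, Kt, e, cP, L, CD, t⟩ with hN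
    have hl : 0 < N.lam s r := H401.Num.lam_pos (p := N) ht hs hr
    have hm := H460.m_eq' (q := N) ht hs hr
    have e5 : L * t ^ (2 - c) * √s / (2 * N.lam s r) = L / 2 * (t ^ (-c) * (t / r) ^ e0) := hm
    have hsl := slotN_slg0 (α := α) hcls ht hr hl (Al := N.al U K) ho hsg
    rw [e5] at hsl
    set E : ℝ := L / 2 * (t ^ (-c) * (t / r) ^ e0) with hE
    have hE0 : 0 < E := by
      have : 0 < (t / r) ^ e0 := Real.rpow_pos_of_pos (div_pos ht hr0) _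
      have h4 : 0 < t ^ (-c) := Real.rpow_pos_of_pos ht _
      have : 0 < L := by linarith
      positivity
    have hEb : E ≤ L + 3780000 := by
      have b1 : (t / r) ^ e0 ≤ t ^ e0 :=
        Real.rpow_le_rpow (by positivity) (div_le_self ht.le hr) he0.le
      have b2 : t ^ (-c) * (t / r) ^ e0 ≤ 1 := by
        have b3 : 0 < t ^ (-c) := Real.rpow_pos_of_pos ht _
        refine (mul_le_mul_of_nonneg_left b1 b3.le).trans ?_
        rw [← Real.rpow_add ht]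
        exact Real.rpow_le_one ht.le ht1 (by linarith [hcc.trans (min_le_right c1 (e0 / 4))])
      rw [hE]
      nlinarith
    set k : ℝ := H970.SkG.kg t r α 0 with hk
    have ek : k = (r / t) ^ α := by
      rw [hk]
      unfold H970.SkG.kg
      rw [pow_zero, mul_one]
    have hk1 : 1 ≤ k := by
      rw [ek]
      exact Real.one_le_rpow hρ (by linarith)
    have h6 := H t ht ht1 n ez F1 F2 F3 h1 h3 h2 o ho K hKn x ι s r U g u v hs hr hcls A b' C' hD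
      _ _ _ (by linarith) le_rfl hEb hsl h hh j hj q hq
    refine h6.trans ?_
    have h7 := H2 c hc (hcc.trans (min_le_right _ _)) t ht ht1 r hr
      (fun g' => if g' = 0 then E else 0) (fun g' => (α + 2) * (1 + Real.log (r / t) + g'))
      (fun g' => by split_ifs <;> [exact hE0.le; exact le_rfl])
      (fun g' => by
        have : (0 : ℝ) ≤ (g' : ℝ) := Nat.cast_nonneg _
        have : 0 ≤ α + 2 := by linarith
        positivity)
      (fun g' => le_rfl) (by rw [if_pos rfl])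
      (fun g' => by
        rw [if_neg (Nat.succ_ne_zero g')]
        positivity) 0
    rw [zero_add, sum_range_one, if_pos rfl] at h7
    have h8 : (1 + Real.log (k + 1) + Real.log (r / t)) ^ p * E ^ θ ≤
        ((α + 2) * (1 + Real.log (r / t) + ((0 : ℕ) : ℝ))) ^ p * E ^ θ := by
      refine mul_le_mul_of_nonneg_right ?_ (Real.rpow_nonneg hE0.le _)
      have h9 : Real.log (k + 1) ≤ 1 + α * Real.log (r / t) := by
        have h10 : Real.log (k + 1) ≤ Real.log (2 * k) :=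
          Real.log_le_log (by linarith) (by linarith)
        rw [Real.log_mul (by norm_num) (by linarith), ek, Real.log_rpow hρ0] at h10
        have h14 : Real.log 2 ≤ 1 := by
          have := Real.log_two_lt_d9
          linarith
        rw [ek]
        linarith
      have h10 := Real.log_nonneg (by linarith : (1 : ℝ) ≤ k + 1)
      refine pow_le_pow_left₀ (by linarith) ?_ p
      push_cast
      nlinarith
    have h11 : 0 ≤ t * (r / t) ^ w * t ^ (-(b * (c + d))) * s ^ (5 / 4 : ℝ) * √ez * 8 ^ K := by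
      have : 0 ≤ √ez := Real.sqrt_nonneg _
      positivity
    have h12 := mul_le_mul_of_nonneg_left (mul_le_mul_of_nonneg_right (h8.trans h7) h11) hC
    refine h12.trans (le_of_eq ?_)
    have e6 : (r / t) ^ w = (t / r) ^ (-w) := by
      rw [Real.rpow_neg (by positivity), ← Real.inv_rpow (by positivity), inv_div]
    have e7 : t ^ (e0 * θ / 2) * r ^ (-(e0 * θ / 2)) = (t / r) ^ (e0 * θ / 2) := by
      rw [Real.div_rpow ht.le hr0.le, Real.rpow_neg hr0.le]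
      rfl
    have e8 : (t / r) ^ (e0 * θ / 2 - w) = (t / r) ^ (-w) * (t / r) ^ (e0 * θ / 2) := by
      rw [← Real.rpow_add (div_pos ht hr0)]
      congr 1
      ring
    rw [e6, e7, e8]
    ring
  refine H677.Sk.PartX.scale (by norm_num : (0 : ℝ) ≤ 24) main ?_
  intro ι _ _ q n ez F1 F2 F3 o K x s r U g u v B h A b C hD sg hsg
  rw [mk0_slg]
  exact qM_le K (cx K x) _ A b C (h A b C hD sg hsg)

/-! ### The composition -/

/-- **The flow part, reserve route.** -/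
theorem partF_resA {α : ℝ} (hα : 1 ≤ α)
    (HM : PartMk FDU (mk0 α) fun _ι _ _ _o K M R A b C => qM K M R A b C)
    (HC : PartMk FDU (mkC (mk0 α)) fun _ι _ _ o K M R A b C => qA o K M R A b C) :
    PartF D0 NTFf :=
  partF_mask0 hα (fun ι _ _ q n ez F1 F2 F3 o K x s r U g u v A b C _ _ _ _ h => h.1.2.2)
    (fun ι _ _ q n ez F1 F2 F3 o K x s r U g u v A b C _ _ _ _ h => h.2)
    (H944.RowN.leafN_row.weaken
      fun ι _ _ q n ez F1 F2 F3 o K x s r U g u v A b C _ _ _ _ h => h.1.2.2)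
    (HM.weaken fun ι _ _ q n ez F1 F2 F3 o K x s r U g u v A b C _ _ _ _ h => h.1)
    (HC.weaken fun ι _ _ q n ez F1 F2 F3 o K x s r U g u v A b C _ _ _ _ h => h.1)

/-- **The class statement, reserve route.** -/
theorem ce1q_of_resA {α : ℝ} (hα : 1 ≤ α) (HT : CStF H652.NT) (HCr : H331.LeafCr)
    (HM : PartMk FDU (mk0 α) fun _ι _ _ _o K M R A b C => qM K M R A b C)
    (HC : PartMk FDU (mkC (mk0 α)) fun _ι _ _ o K M R A b C => qA o K M R A b C) : CE1q := by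
  have hF := partF_resA hα HM HC
  have h : PartF D0 H401.NF := hF.le 1 zero_le_one fun ι _ _ l o _ Al K x u A b C sg => by
    rw [one_mul]
    exact H401.NF_le_TFf l o Al K x u A b C sg
  exact H401.ce1q_of_CStUV H401.hst00S H508.hst0S H74.hst1 H74.hst2 H64.hSt3
    (H401.cstF_NI HT).toUV (H401.cstUV_NZ HCr) (CStUV.of_mkFU mkFU_D0 h)

/-- **The final statement at every `r < 2`, reserve route.** -/
theorem finalAll_of_resA {α : ℝ} (hα : 1 ≤ α) (HT : CStF H652.NT) (HCr : H331.LeafCr)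
    (HM : PartMk FDU (mk0 α) fun _ι _ _ _o K M R A b C => qM K M R A b C)
    (HC : PartMk FDU (mkC (mk0 α)) fun _ι _ _ o K M R A b C => qA o K M R A b C) :
    H397.FinalAll :=
  H397.finalAll_of_gen2 (H927.genOut2_of_cen (H879.cenStM_of_ce1q (ce1q_of_resA hα HT HCr HM HC))
    H879.cenStL2)

/-- **The final statement from the price of the slots of natural energy and the stopped part.** -/
theorem finalAll_of_resA' {α : ℝ} (hα : 1 ≤ α) (HT : CStF H652.NT) (HCr : H331.LeafCr)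
    (HM : PriceB0 FDU fun _ι _ _ K M R A b C h j e => FM1 K M R A b C h j e)
    (HC : PartMk FDU (mkC (mk0 α)) fun _ι _ _ o K M R A b C => qA o K M R A b C) :
    H397.FinalAll :=
  finalAll_of_resA hα HT HCr (partMk_qM_of_priceB0 hα HM) HC

end

end Vale.Agent.P141.H924
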