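import Vale.Agent.P141.H58.LeafS

/-!
# P141, line (A), flow part: the shift error for slots with row-level signs

* `slG S` : the moving slot with the signs `S x1 k (cell of x0) (cell of z)`, any `|S| ≤ 1`;
  `sl_slG` : the slot of the skeleton is one of them; `av_slG` : its means over shifted cells;
* `dG`, `eG` : the slot difference and its energy, any slot; `qS_cs` : Cauchy-Schwarz;
* `eG_le`, `eG_num`, `eG_FDs` : the number of the energy factor for `slG S`;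
* `PartRow D T` : the price of a functional of slots, all row-level signs;
  `partF_row : PartRow D T → PartF D (T of the slot of the skeleton)`;
* **`leafS_row : PartRow FD qS`**.
-/

namespace Vale.Agent.P141.H924

open Finset Matrix
open Vale.Agent.P141.PL (Pt iv hs ix mem_iv ix_ix cb mem_cb cx)
open Vale.Agent.P141.PL.H560 (cbs bx0)
open Vale.Agent.P141.PL.H315 (Tri A2 avg)
open Vale.Agent.P141.H48 (US ES BSl sst)
open Vale.Agent.P141.H677 (GA RT MT KT GT rt rv kF)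
open Vale.Agent.P141.H677.Sk
open Vale.Agent.P141.H795 (TS)
open Vale.Agent.P141.H43 (nsq nsq_nonneg)
open Vale.Agent.P141.H841 (Rm Rs)
open Vale.Agent.P141.H401 (StX PartX PartF)
open Vale.Agent.P141.H305 (Cls ClsM kapM)
open Vale.Agent.P141.H652 (cs_step)
open Vale.Agent.P141.H58 (MxR sR sR_le sl_Rm QR farRA farEA dR_ptA hXR card_rt far_tot TS_cs nCS
  nCS_le gpS gpS_nonneg eP eP_nonneg kF_dead kF_line pot_u mass_u mass_v)

noncomputable section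

open scoped Classical

variable {ι : Type} [Fintype ι] [DecidableEq ι]

/-! ### The slots -/

/-- the moving slot with the signs `S x1 k (cell of x0) (cell of z)` -/
def slG (S : ℤ → ℕ → ℤ → ℤ → ℝ) (o : ℤ) (l : ℝ) (K : ℕ) (M : Pt) (u : ℤ → ℤ → ι → ℝ) : Slt ι :=
  fun x0 j z x => Rm (MxR l K M u x) o x (S x) K j x0 z

theorem sl_slG (Al : ℕ → Pt → Prop) (o : ℤ) (K : ℕ) (M : Pt) (sg : ℕ → Pt → ℝ) (l : ℝ)
    (u : ℤ → ℤ → ι → ℝ) : sl Al o K M sg l u = slG (sR Al o K M sg) o l K M u := by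
  funext x0 j z x
  exact sl_Rm Al o K M sg l u x0 j z x

theorem av_slG (S : ℤ → ℕ → ℤ → ℤ → ℝ) (o : ℤ) (l : ℝ) (K : ℕ) (M : Pt) (u : ℤ → ℤ → ι → ℝ)
    (h x0 : ℤ) (k : ℕ) (z x : ℤ) : av (slG S o l K M u) h x0 k z x =
      Rs (MxR l K M u x) o x (S x) K h k x0 (ix k (z - h)) := rfl

theorem slG_top (S : ℤ → ℕ → ℤ → ℤ → ℝ) (o : ℤ) (l : ℝ) (K : ℕ) (M : Pt)
    (u : ℤ → ℤ → ι → ℝ) (x0 z x : ℤ) : slG S o l K M u x0 K z x = 0 := by
  unfold slG H841.Rm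
  rw [Ico_self, sum_empty]

/-! ### Any slot: Cauchy-Schwarz -/

/-- the slot difference on the third function -/
def dG (R : Slt ι) (C : FamV ι) (h x0 : ℤ) (k : ℕ) (z x : ℤ) : ι → ℝ :=
  (R x0 k z x - av R h x0 (k + 1) z x) *ᵥ C x0 (k + 1) z x

/-- energy of the slot difference -/
def eG (K : ℕ) (M : Pt) (R : Slt ι) (C : FamV ι) (h : ℤ) : ℝ :=
  ∑ t ∈ rt M, ∑ x0 ∈ iv K t, ∑ k ∈ range K, ∑ z ∈ iv K M.2.2, ∑ x ∈ iv K M.1,
    dG R C h x0 k z x ⬝ᵥ dG R C h x0 k z x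

omit [DecidableEq ι] in
/-- **One grid.** -/
theorem qS_grid (K : ℕ) (M : Pt) (R : Slt ι) (A : FamA) (b C : FamV ι) {s : Pt}
    (hs0 : s ∈ cb K 0) :
    ∑ t ∈ rt M, ∑ x0 ∈ iv K t, ∑ k ∈ range K,
      TS K M (-x0) (k + 1) s (fun y => GA (A x0) (b x0) (C x0) (R x0) k (k + 1) y -
        GA (A x0) (b x0) (C x0) (av R s.2.2 x0) (k + 1) (k + 1) y) ≤
      √(3 * eG K M R C s.2.2) * √(eP K M A b s) := by
  have e3 : 3 * eG K M R C s.2.2 = ∑ t ∈ rt M, ∑ x0 ∈ iv K t, ∑ k ∈ range K,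
      3 * ∑ z ∈ iv K M.2.2, ∑ x ∈ iv K M.1,
        dG R C s.2.2 x0 k z x ⬝ᵥ dG R C s.2.2 x0 k z x := by
    unfold eG
    simp only [← mul_sum]
  rw [e3]
  unfold H58.eP
  have hn : ∀ (x0 : ℤ) (k : ℕ), 0 ≤ 3 * ∑ z ∈ iv K M.2.2, ∑ x ∈ iv K M.1,
      dG R C s.2.2 x0 k z x ⬝ᵥ dG R C s.2.2 x0 k z x := fun _ _ =>
    mul_nonneg (by norm_num) (sum_nonneg fun _ _ => sum_nonneg fun _ _ =>
      H922.dot_self_nonneg _)
  refine cs_step _ (fun _ => sum_nonneg fun _ _ => sum_nonneg fun _ _ => hn _ _)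
    (fun _ => sum_nonneg fun _ _ => sum_nonneg fun _ _ => gpS_nonneg _ _ _ _ _ _ _)
    fun t _ => ?_
  refine cs_step _ (fun _ => sum_nonneg fun _ _ => hn _ _)
    (fun _ => sum_nonneg fun _ _ => gpS_nonneg _ _ _ _ _ _ _) fun x0 _ => ?_
  refine cs_step _ (fun _ => hn _ _) (fun _ => gpS_nonneg _ _ _ _ _ _ _) fun k hk => ?_
  have e : (fun y => GA (A x0) (b x0) (C x0) (R x0) k (k + 1) y -
      GA (A x0) (b x0) (C x0) (av R s.2.2 x0) (k + 1) (k + 1) y) = fun y : Pt =>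
      A x0 (k + 1) y.2.2 y.2.1 * (b x0 (k + 1) y.1 y.2.1 ⬝ᵥ
        dG R C s.2.2 x0 k y.2.2 y.1) := by
    funext y
    unfold GA dG
    rw [sub_mulVec, dotProduct_sub]
    ring
  rw [e]
  refine (TS_cs K M (-x0) (by omega) s (A x0 (k + 1)) (b x0 (k + 1))
    (dG R C s.2.2 x0 k)).trans ?_
  refine mul_le_mul_of_nonneg_right (Real.sqrt_le_sqrt ?_) (Real.sqrt_nonneg _)
  exact nCS_le (by rw [mem_range] at hk; omega) M (-x0) hs0 _

omit [DecidableEq ι] in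
/-- **The shift error, any slot.** -/
theorem qS_cs (K : ℕ) (M : Pt) (R : Slt ι) (A : FamA) (b C : FamV ι) {W P : ℝ}
    (hW : ∀ s ∈ cb K 0, eG K M R C s.2.2 ≤ W) (hP : ∀ s ∈ cb K 0, eP K M A b s ≤ P) :
    qS K M R A b C ≤ √(3 * W) * √P := by
  unfold qS
  have h1 : ∀ s ∈ cb K 0, ∑ t ∈ rt M, ∑ x0 ∈ iv K t, ∑ k ∈ range K,
      TS K M (-x0) (k + 1) s (fun y => GA (A x0) (b x0) (C x0) (R x0) k (k + 1) y -
        GA (A x0) (b x0) (C x0) (av R s.2.2 x0) (k + 1) (k + 1) y) ≤ √(3 * W) * √P :=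
    fun s hs => (qS_grid K M R A b C hs).trans (mul_le_mul
      (Real.sqrt_le_sqrt (mul_le_mul_of_nonneg_left (hW s hs) (by norm_num)))
      (Real.sqrt_le_sqrt (hP s hs)) (Real.sqrt_nonneg _) (Real.sqrt_nonneg _))
  have h2 := mul_le_mul_of_nonneg_left (sum_le_sum h1)
    (by positivity : (0 : ℝ) ≤ ((8 : ℝ) ^ K)⁻¹)
  refine h2.trans (le_of_eq ?_)
  rw [sum_const, nsmul_eq_mul]
  have hc : ((cb K 0).card : ℝ) = 8 ^ K := by
    unfold cb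
    rw [card_product, card_product, PL.card_iv, PL.card_iv, PL.card_iv]
    push_cast
    rw [← mul_pow, ← mul_pow]
    norm_num
  rw [hc]
  have h8 : (8 : ℝ) ^ K ≠ 0 := by positivity
  field_simp

/-! ### The energy of the slot difference -/

/-- **The energy of the slot difference.** `C = φ v` with line energies `e` of `φ`, `φ = 0` at the
time `k` unless `al k z x`. -/
theorem eG_le {S : ℤ → ℕ → ℤ → ℤ → ℝ} (hS : ∀ x k a b, |S x k a b| ≤ 1) {o : ℤ}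
    (ho : o = 1 ∨ o = -1) (K : ℕ) (M : Pt) {l : ℝ} (hl : 0 < l)
    (u v : ℤ → ℤ → ι → ℝ) (C : FamV ι) {φ : ℤ → ℕ → ℤ → ℤ → ℝ} {e : ℝ} (he : 0 ≤ e)
    (al : ℤ → ℤ → ℕ → Prop)
    (hC : ∀ x0, ∀ k < K, ∀ z ∈ iv K M.2.2, ∀ x ∈ iv K M.1,
      C x0 (k + 1) z x = φ x0 (k + 1) z x • v x z)
    (hal : ∀ x0, ∀ k < K, ∀ z ∈ iv K M.2.2, ∀ x ∈ iv K M.1, ¬ al z x (k + 1) →
      φ x0 (k + 1) z x = 0)
    (hφ : ∀ k < K, ∀ j, ∀ z ∈ iv K M.2.2, ∀ x ∈ iv K M.1,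
      ∑ x0 ∈ iv k j, φ x0 (k + 1) z x ^ 2 ≤ e * 2 ^ k) (L : ℕ) (h : ℤ) :
    eG K M (slG S o l K M u) C h ≤ ∑ z ∈ iv K M.2.2, ∑ x ∈ iv K M.1,
      e * (3 * (98 + 32 * (L : ℝ) ^ 3) * (2 ^ K * QR l K M u x (v x z)) +
        4 * farRA (al z x) l K M u L h z x (v x z)) := by
  set R := slG S o l K M u with hR
  have e1 : eG K M R C h = ∑ z ∈ iv K M.2.2, ∑ x ∈ iv K M.1, ∑ t ∈ rt M,
      ∑ k ∈ range K, ∑ x0 ∈ iv K t, dG R C h x0 k z x ⬝ᵥ dG R C h x0 k z x := by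
    unfold eG
    calc ∑ t ∈ rt M, ∑ x0 ∈ iv K t, ∑ k ∈ range K, ∑ z ∈ iv K M.2.2, ∑ x ∈ iv K M.1,
        dG R C h x0 k z x ⬝ᵥ dG R C h x0 k z x
        = ∑ t ∈ rt M, ∑ z ∈ iv K M.2.2, ∑ x ∈ iv K M.1, ∑ k ∈ range K, ∑ x0 ∈ iv K t,
          dG R C h x0 k z x ⬝ᵥ dG R C h x0 k z x := by
          refine sum_congr rfl fun t _ => ?_
          have a1 : ∀ x0 ∈ iv K t, ∑ k ∈ range K, ∑ z ∈ iv K M.2.2, ∑ x ∈ iv K M.1,
              dG R C h x0 k z x ⬝ᵥ dG R C h x0 k z x =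
              ∑ z ∈ iv K M.2.2, ∑ x ∈ iv K M.1, ∑ k ∈ range K,
              dG R C h x0 k z x ⬝ᵥ dG R C h x0 k z x := by
            intro x0 _
            rw [sum_comm]
            refine sum_congr rfl fun z _ => ?_
            rw [sum_comm]
          rw [sum_congr rfl a1, sum_comm]
          refine sum_congr rfl fun z _ => ?_
          rw [sum_comm]
          refine sum_congr rfl fun x _ => ?_
          rw [sum_comm]
      _ = _ := by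
          rw [sum_comm]
          refine sum_congr rfl fun z _ => ?_
          rw [sum_comm]
  rw [e1]
  refine sum_le_sum fun z hz => sum_le_sum fun x hx => ?_
  have e2 : ∀ t ∈ rt M, ∑ k ∈ range K, ∑ x0 ∈ iv K t, dG R C h x0 k z x ⬝ᵥ
      dG R C h x0 k z x ≤
      e * ((98 + 32 * (L : ℝ) ^ 3) * (2 ^ K * QR l K M u x (v x z)) +
        4 * farEA (al z x) (MxR l K M u x) K t x M.2.2 L h z (v x z)) := by
    intro t _
    have e3 := dR_ptA (s := S x) (fun k a b => hS x k a b) ho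
      (hXR hl K M u x t M.2.2 (v x z)) (al z x) (W := fun k x0 => φ x0 (k + 1) z x ^ 2) he
      (fun k x0 => sq_nonneg _)
      (fun k hk hk2 x0 => by
        have h5 := hal x0 k hk z hz x hx hk2
        show φ x0 (k + 1) z x ^ 2 = 0
        rw [h5]
        norm_num) (fun k hk j => hφ k hk j z hz x hx) L h hz
    refine le_trans (le_of_eq ?_) e3
    refine sum_congr rfl fun k hk => sum_congr rfl fun x0 _ => ?_
    rw [mem_range] at hk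
    unfold dG
    rw [hR, av_slG, hC x0 k hk z hz x hx, mulVec_smul, smul_dotProduct, dotProduct_smul,
      smul_eq_mul, smul_eq_mul]
    unfold H43.nsq slG
    ring
  refine (sum_le_sum e2).trans (le_of_eq ?_)
  unfold H58.farRA
  rw [← mul_sum, sum_add_distrib, sum_const, nsmul_eq_mul, card_rt, ← mul_sum]
  ring

/-- **The number of the energy factor.** -/
theorem eG_num {S : ℤ → ℕ → ℤ → ℤ → ℝ} (hS : ∀ x k a b, |S x k a b| ≤ 1) {o : ℤ}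
    (ho : o = 1 ∨ o = -1) (K : ℕ) (M : Pt) {l : ℝ} (hl : 0 < l)
    (u v : ℤ → ℤ → ι → ℝ) (C : FamV ι) {φ : ℤ → ℕ → ℤ → ℤ → ℝ} {e : ℝ} (he : 0 ≤ e)
    (al : ℤ → ℤ → ℕ → Prop)
    (hC : ∀ x0, ∀ k < K, ∀ z ∈ iv K M.2.2, ∀ x ∈ iv K M.1,
      C x0 (k + 1) z x = φ x0 (k + 1) z x • v x z)
    (hal : ∀ x0, ∀ k < K, ∀ z ∈ iv K M.2.2, ∀ x ∈ iv K M.1, ¬ al z x (k + 1) →
      φ x0 (k + 1) z x = 0)
    (hφ : ∀ k < K, ∀ j, ∀ z ∈ iv K M.2.2, ∀ x ∈ iv K M.1,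
      ∑ x0 ∈ iv k j, φ x0 (k + 1) z x ^ 2 ≤ e * 2 ^ k) {lam1 P s : ℝ} (hlam1 : 0 ≤ lam1)
    (hP0 : 0 ≤ P)
    (fib : ∀ x ∈ iv K M.1, ∀ k ≤ K, ∀ z ∈ iv K M.2.2, al z x k →
      ∑ y ∈ iv k (ix k z), v x y ⬝ᵥ v x y ≤ lam1 * 2 ^ k)
    (pot : ∀ x ∈ iv K M.1, ∀ w : ι → ℝ,
      ((2 : ℝ) ^ K)⁻¹ * ∑ y ∈ iv K M.2.1, (u x y ⬝ᵥ w) ^ 2 ≤ P * (w ⬝ᵥ w))
    (hu : ∑ x ∈ iv K M.1, ∑ y ∈ iv K M.2.1, u x y ⬝ᵥ u x y ≤ s * 4 ^ K)
    (hv : ∑ z ∈ iv K M.2.2, ∑ x ∈ iv K M.1, v x z ⬝ᵥ v x z ≤ s * 4 ^ K) (L : ℕ) (h : ℤ) :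
    eG K M (slG S o l K M u) C h ≤ 8 ^ K * s * e * (3 / 2 * (98 + 32 * (L : ℝ) ^ 3) * (P / l) +
      384 * ((((L : ℝ) + 2) ^ 2 + 2) / 2 ^ L) * (lam1 / l)) := by
  refine (eG_le hS ho K M hl u v C he al hC hal hφ L h).trans ?_
  have e1 : ∑ z ∈ iv K M.2.2, ∑ x ∈ iv K M.1,
      e * (3 * (98 + 32 * (L : ℝ) ^ 3) * (2 ^ K * QR l K M u x (v x z)) +
        4 * farRA (al z x) l K M u L h z x (v x z)) =
      e * (3 * (98 + 32 * (L : ℝ) ^ 3) * (2 ^ K * ∑ z ∈ iv K M.2.2, ∑ x ∈ iv K M.1,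
        QR l K M u x (v x z)) + 4 * ∑ z ∈ iv K M.2.2, ∑ x ∈ iv K M.1,
        farRA (al z x) l K M u L h z x (v x z)) := by
    simp only [mul_sum, ← sum_add_distrib]
  rw [e1]
  have h1 : ∑ z ∈ iv K M.2.2, ∑ x ∈ iv K M.1, QR l K M u x (v x z) ≤
      (2 * l)⁻¹ * P * (s * 4 ^ K) := by
    have h2 : ∀ z ∈ iv K M.2.2, ∀ x ∈ iv K M.1, QR l K M u x (v x z) ≤
        (2 * l)⁻¹ * P * (v x z ⬝ᵥ v x z) := by
      intro z _ x hx
      unfold H58.QR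
      rw [H677.GT_form, mul_assoc]
      exact mul_le_mul_of_nonneg_left (pot x hx _) (by positivity)
    refine (sum_le_sum fun z hz => sum_le_sum fun x hx => h2 z hz x hx).trans ?_
    simp only [← mul_sum]
    exact mul_le_mul_of_nonneg_left hv (by positivity)
  have h3 := far_tot hl K M u v al hlam1 fib hu L h
  have h4 : (8 : ℝ) ^ K = 2 ^ K * 4 ^ K := by rw [← mul_pow]; norm_num
  calc e * (3 * (98 + 32 * (L : ℝ) ^ 3) * (2 ^ K * ∑ z ∈ iv K M.2.2, ∑ x ∈ iv K M.1,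
        QR l K M u x (v x z)) + 4 * ∑ z ∈ iv K M.2.2, ∑ x ∈ iv K M.1,
        farRA (al z x) l K M u L h z x (v x z))
      ≤ e * (3 * (98 + 32 * (L : ℝ) ^ 3) * (2 ^ K * ((2 * l)⁻¹ * P * (s * 4 ^ K))) +
        4 * (96 * (2 ^ K * (((L : ℝ) + 2) ^ 2 + 2) / 2 ^ L) * (lam1 / l) * (s * 4 ^ K))) := by
        refine mul_le_mul_of_nonneg_left (add_le_add (mul_le_mul_of_nonneg_left
          (mul_le_mul_of_nonneg_left h1 (by positivity)) (by positivity))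
          (mul_le_mul_of_nonneg_left h3 (by norm_num))) he
    _ = _ := by
        rw [h4]
        field_simp
        ring

/-- **The number of the energy factor, data of the flow part.** -/
theorem eG_FDs {S : ℤ → ℕ → ℤ → ℤ → ℝ} (hS : ∀ x k a b, |S x k a b| ≤ 1)
    {q : H401.Num} {n : ℕ} {ez : ℝ} {F1 F2 F3 : ℕ → Pt → ℝ} {o : ℤ} {K : ℕ} {x : Pt}
    {s r : ℝ} {U : Tri} {g : ℤ → ℤ → ℝ} {u v : ℤ → ℤ → ι → ℝ} {A : FamA} {b C : FamV ι}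
    {Q1 Q2 Q3 : ℕ → Pt → Prop} {v' : ℤ → ℤ → ι → ℝ}
    (D : FDs q n ez F1 F2 F3 K x s r U g u v A b C Q1 Q2 Q3 v')
    (hcls : ClsM K x s r (q.L * q.t ^ (2 - q.c) * √s) (kapM q.L q.t q.a s r) U g u v)
    (ho : o = 1 ∨ o = -1) (hKn : K ≤ n) (ht : 0 < q.t) (hL : 1 ≤ q.L) (hs : 0 < s)
    (hr : 1 ≤ r) (hez : 0 ≤ ez) (Ln : ℕ) (h : ℤ) :
    eG K (cx K x) (slG S o (q.lam s r) K (cx K x) u) C h ≤
      8 ^ K * s * ez * (147 * (1 + (Ln : ℝ)) ^ 3 * (q.L * q.t ^ (2 - q.c) * √s / q.lam s r) +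
        384 * (((Ln : ℝ) + 2) ^ 2 + 2) / 2 ^ Ln * (lam1 q s r / q.lam s r)) := by
  have hl : 0 < q.lam s r := H401.Num.lam_pos ht hs hr
  have hr0 : 0 < r := by linarith
  have hl1 : 0 ≤ lam1 q s r := by
    unfold lam1
    have h1 : 0 < q.t ^ (-8 : ℝ) := Real.rpow_pos_of_pos ht _
    have h2 : 0 < r ^ (8 : ℝ) := Real.rpow_pos_of_pos hr0 _
    positivity
  have hP0 : 0 ≤ q.L * q.t ^ (2 - q.c) * √s := by
    have h1 : 0 < q.t ^ (2 - q.c) := Real.rpow_pos_of_pos ht _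
    have h2 : 0 ≤ q.L := by linarith
    positivity
  have hv'v : ∀ x' z, v' x' z ⬝ᵥ v' x' z ≤ v x' z ⬝ᵥ v x' z := by
    intro x' z
    rcases D.v_or x' z with h1 | h1
    · rw [h1]
    · rw [h1, dotProduct_zero]
      exact H922.dot_self_nonneg _
  have main := eG_num hS ho K (cx K x) hl u v' C
    (φ := fun x0 k z x' => kF q.Lm U.2.1 K F2 k (x0, x', z)) hez
    (fun z x' k => ¬ sst q.Lm U.2.1 K k x' z)
    (fun x0 k _ z _ x' _ => D.C_eq x0 (k + 1) z x')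
    (fun x0 k _ z _ x' _ hd => kF_dead F2 (not_not.1 hd))
    (fun k hk j z _ x' _ => kF_line D.B2 hez (by omega) j x' z)
    (lam1 := lam1 q s r) (P := q.L * q.t ^ (2 - q.c) * √s) (s := s) hl1 hP0
    (fun x' hx' k hk z hz hd => D.fib k hk x' hx' z hz hd)
    (pot_u hcls.toCls) (mass_u hcls.toCls)
    ((sum_le_sum fun z _ => sum_le_sum fun x' _ => hv'v x' z).trans (mass_v hcls.toCls)) Ln h
  refine main.trans ?_
  refine mul_le_mul_of_nonneg_left (add_le_add ?_ (le_of_eq ?_)) (by positivity)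
  · refine mul_le_mul_of_nonneg_right ?_ (div_nonneg hP0 hl.le)
    have h0 : (0 : ℝ) ≤ Ln := Nat.cast_nonneg _
    nlinarith [mul_nonneg h0 h0, mul_nonneg (mul_nonneg h0 h0) h0]
  · ring

/-! ### Row-level signs: the quantifiers -/

/-- a functional of slots and families at the data of one class -/
abbrev FunR : Type 1 :=
  ∀ (ι : Type) [Fintype ι] [DecidableEq ι], ℤ → ℕ → Pt → Slt ι → FamA → FamV ι → FamV ι → ℝ

/-- **The price of a functional of slots, all row-level signs.** -/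
def PartRow (D : H401.Bun) (T : FunR) : Prop :=
  PartX fun ι _ _ q n ez F1 F2 F3 o K x s r U g u v B =>
    ∀ (A : FamA) (b C : FamV ι), D ι q n ez F1 F2 F3 o K x s r U g u v A b C →
      ∀ S : ℤ → ℕ → ℤ → ℤ → ℝ, (∀ x k a b, |S x k a b| ≤ 1) →
        T ι o K (cx K x) (slG S o (q.lam s r) K (cx K x) u) A b C ≤ B

/-- the signs of nodes are row-level signs -/
theorem partF_row {D : H401.Bun} {T : FunR} (H : PartRow D T) : PartF D fun ι _ _ l o Al K x u A b C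
    sg => T ι o K (cx K x) (sl Al o K (cx K x) sg l u) A b C := by
  intro a ha ha1
  obtain ⟨es, hes, H⟩ := H a ha ha1
  refine ⟨es, hes, fun e0 he0 he0' => ?_⟩
  obtain ⟨k8, hk8, H⟩ := H e0 he0 he0'
  refine ⟨k8, hk8, fun k8' hk8' hk8'' => ?_⟩
  obtain ⟨k3, hk3, H⟩ := H k8' hk8' hk8''
  refine ⟨k3, hk3, fun k3' hk3' hk3'' => ?_⟩
  obtain ⟨g1, c1, d1, l1, hg1, hc1, hd1, hl1, H⟩ := H k3' hk3' hk3''
  refine ⟨g1, c1, d1, l1, hg1, hc1, hd1, hl1,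
    fun c' hc' hcc d hd hdd Kt e cP L hK he hcP hL CD hCD => ?_⟩
  obtain ⟨C, hC, H⟩ := H c' hc' hcc d hd hdd Kt e cP L hK he hcP hL CD hCD
  refine ⟨C, hC, ?_⟩
  intro t ht ht1 n ez F1 F2 F3 h1 h3 h2 o ho K hKn x ι _ _ s r U g u v hs hr hcls A b C' hD sg hsg
  have k1 := H t ht ht1 n ez F1 F2 F3 h1 h3 h2 o ho K hKn x ι s r U g u v hs hr hcls A b C' hD
    (sR (H401.Num.al ⟨a, e0, k8', k3', c', d, Kt, e, cP, L, CD, t⟩ U K) o K (cx K x) sg)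
    fun x k a b => sR_le hsg x k a b
  rw [← sl_slG] at k1
  exact k1

/-- **The shift error from the number of the slot difference, one class.** -/
theorem qS_of {S : ℤ → ℕ → ℤ → ℤ → ℝ} (hS : ∀ x k a b, |S x k a b| ≤ 1) {Cn : ℝ}
    {q : H401.Num} {n : ℕ}
    {ez : ℝ} {F1 F2 F3 : ℕ → Pt → ℝ} {o : ℤ} {K : ℕ} {x : Pt} {s r : ℝ} {U : Tri}
    {g : ℤ → ℤ → ℝ} {u v : ℤ → ℤ → ι → ℝ} {A : FamA} {b C : FamV ι}
    (hD : FD ι q n ez F1 F2 F3 o K x s r U g u v A b C)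
    (hcls : ClsM K x s r (q.L * q.t ^ (2 - q.c) * √s) (kapM q.L q.t q.a s r) U g u v)
    (ho : o = 1 ∨ o = -1) (hKn : K ≤ n) (ht : 0 < q.t) (ht1 : q.t ≤ 1) (hc : 0 ≤ q.c)
    (hc1 : q.c ≤ q.e0 / 32) (hd : 0 < q.d) (hd1 : q.d ≤ q.e0 / 32)
    (hL : 1 ≤ q.L) (hCD : 1 ≤ q.CD) (hcP : 0 ≤ q.cP) (hs : 0 < s) (hr : 1 ≤ r) (hez : 0 ≤ ez)
    (he0 : 0 < q.e0)
    (HN : ∀ c : ℝ, 0 ≤ c → c ≤ q.e0 / 32 → ∀ d : ℝ, 0 ≤ d → d ≤ q.e0 / 32 → ∀ k : ℝ, 0 ≤ k →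
      k ≤ q.e0 / 32 → ∀ C1 C2 : ℝ, 0 ≤ C1 → 0 ≤ C2 →
      ∀ t r s ez W P : ℝ, 0 < t → t ≤ 1 → 1 ≤ r → 0 < s → 0 ≤ ez → ∀ K : ℕ,
      (∀ Ln : ℕ, 1 ≤ Ln → W ≤ C1 * (ez * 8 ^ K * s * ((1 + (Ln : ℝ)) ^ 6 *
        (t ^ (q.e0 - c) * r ^ (-q.e0)) + (1 + (Ln : ℝ)) ^ 6 * ((2 : ℝ) ^ Ln)⁻¹ *
          (r / t) ^ (10 : ℝ)))) →
      P ≤ C2 * (t ^ (2 - 2 * c - 2 * d - 2 * k) * s ^ (3 / 2 : ℝ) * 8 ^ K) →
      √(3 * W) * √P ≤ √(6 * (C1 * Cn * Cn) * C2) *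
        (t ^ (1 + q.e0 / 8) * s ^ (5 / 4 : ℝ) * √ez * 8 ^ K) * r ^ (-(q.e0 / 4))) :
    qS K (cx K x) (slG S o (q.lam s r) K (cx K x) u) A b C ≤
      √(6 * ((147 * q.L + 6 * 384) * Cn * Cn) * (1345536 * (q.CD * (q.cP + 2)))) *
        (q.t ^ (1 + q.e0 / 8) * s ^ (5 / 4 : ℝ) * √ez * 8 ^ K) * r ^ (-(q.e0 / 4)) := by
  obtain ⟨Q1, Q2, Q3, v', hD⟩ := hD
  have hne : (cb K 0).Nonempty := ⟨0, by
    rw [mem_cb]
    unfold PL.cx PL.ix
    simp⟩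
  obtain ⟨W, hW1, hW2⟩ := H470.FS.exists_max hne fun h : Pt =>
    eG K (cx K x) (slG S o (q.lam s r) K (cx K x) u) C h.2.2
  have hP : ∀ s' ∈ cb K 0, eP K (cx K x) A b s' ≤ (1345536 * (q.CD * (q.cP + 2))) *
      (q.t ^ (2 - 2 * q.c - 2 * q.d - 2 * 0) * s ^ (3 / 2 : ℝ) * 8 ^ K) := by
    intro s' _
    have k3 := H210.eP_FD hD hKn (by linarith) ht hs s'
    refine k3.trans (le_of_eq ?_)
    unfold H210.gFD
    rw [mul_zero, sub_zero]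
    ring
  refine (qS_cs K (cx K x) _ A b C hW1 hP).trans ?_
  refine HN q.c hc hc1 q.d hd.le hd1 0 le_rfl (by positivity) (147 * q.L + 6 * 384)
    (1345536 * (q.CD * (q.cP + 2))) (by positivity) (by positivity) q.t r s ez W _ ht ht1 hr hs
    hez K ?_ le_rfl
  intro Ln _
  refine hW2 _ fun h _ => ?_
  have hr0 : 0 < r := by linarith
  have k1 := eG_FDs hS hD hcls ho hKn ht hL hs hr hez Ln h.2.2
  rw [H470.FS.P_div ht hs hr] at k1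
  have k2 := H470.FS.lam1_div ht ht1 hs hr he0.le
  have k3 := H470.FS.num_step (C1 := 147) (C2 := 384) (by norm_num) (by norm_num) hL
    (X := q.t ^ (q.e0 - q.c) * r ^ (-q.e0)) (G := 8 ^ K * s * ez) (by positivity) k2
    (by positivity) (by positivity) Ln
  refine k1.trans (k3.trans (le_of_eq ?_))
  ring

/-- **The shift error of every slot with row-level signs.** -/
theorem leafS_row : PartRow FD fun _ι _ _ _o K M R A b C => qS K M R A b C := by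
  intro a _ _
  refine ⟨1, one_pos, fun e0 he0 _ => ⟨1, one_pos, fun k8 _ _ => ⟨1, one_pos, fun k3 _ _ => ?_⟩⟩⟩
  obtain ⟨Cn, hCn, HN⟩ := H470.PSnum.ps_fin (Cf := 10) he0 (by norm_num)
  refine ⟨e0 / 8, e0 / 32, e0 / 32, e0 / 4, by positivity, by positivity, by positivity,
    by positivity, fun c hc hc1 d hd hd1 Kt e cP L hK he hcP hL CD hCD => ?_⟩
  refine ⟨√(6 * ((147 * L + 6 * 384) * Cn * Cn) * (1345536 * (CD * (cP + 2)))),
    Real.sqrt_nonneg _, ?_⟩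
  intro t ht ht1 n ez F1 F2 F3 h1 h3 h2 o ho K hKn x ι _ _ s r U g u v hs hr hcls A b C hD S hS
  exact qS_of hS hD hcls ho hKn ht ht1 hc hc1 hd hd1 hL hCD hcP hs hr h2.1 he0 HN

end

end Vale.Agent.P141.H924
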